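import Mathlib
import Crest.Agent.PVb.R129.A.Defs
import Crest.Agent.PVb.R129.A.Chi
import Crest.Agent.PVb.R129.A.Sym
import Crest.Agent.PVb.R129.A.Riem
import Crest.Agent.PVb.R129.A.Rho

-- ▼ part PVb/R129/A/Num
section

/-! # Polynomial bounds in `M * 2 ^ l` -/

set_option autoImplicit false

namespace Crest.Agent.R129.A

/-- `f M l` is bounded by a power of `M * 2 ^ l` -/
def PB (f : ℕ → ℕ → ℕ) : Prop := ∃ C : ℕ, ∀ M l : ℕ, 2 ≤ M → f M l ≤ (M * 2 ^ l) ^ C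

theorem two_le_W {M : ℕ} (hM : 2 ≤ M) (l : ℕ) : 2 ≤ M * 2 ^ l :=
  hM.trans (Nat.le_mul_of_pos_right _ (Nat.pow_pos (by norm_num)))

theorem PB.const (c : ℕ) : PB fun _ _ => c :=
  ⟨c, fun _ l hM => (Nat.lt_two_pow_self.le).trans (Nat.pow_le_pow_left (two_le_W hM l) c)⟩

theorem PB.id : PB fun M _ => M :=
  ⟨1, fun M l _ => by
    rw [pow_one]; exact Nat.le_mul_of_pos_right _ (Nat.pow_pos (by norm_num))⟩

theorem PB.exp (R : ℕ) : PB fun _ l => R ^ l :=
  ⟨R, fun M l hM => by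
    calc R ^ l ≤ (2 ^ R) ^ l := Nat.pow_le_pow_left Nat.lt_two_pow_self.le l
      _ = (2 ^ l) ^ R := by rw [← pow_mul, ← pow_mul, mul_comm]
      _ ≤ (M * 2 ^ l) ^ R := Nat.pow_le_pow_left (Nat.le_mul_of_pos_left _ (by omega)) R⟩

theorem PB.mul {f g : ℕ → ℕ → ℕ} (hf : PB f) (hg : PB g) : PB fun M l => f M l * g M l := by
  obtain ⟨C, hC⟩ := hf
  obtain ⟨D, hD⟩ := hg
  exact ⟨C + D, fun M l hM => by
    rw [pow_add]; exact Nat.mul_le_mul (hC M l hM) (hD M l hM)⟩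

theorem PB.pow {f : ℕ → ℕ → ℕ} (hf : PB f) (k : ℕ) : PB fun M l => f M l ^ k := by
  obtain ⟨C, hC⟩ := hf
  exact ⟨C * k, fun M l hM => by
    rw [pow_mul]; exact Nat.pow_le_pow_left (hC M l hM) k⟩

theorem PB.add {f g : ℕ → ℕ → ℕ} (hf : PB f) (hg : PB g) : PB fun M l => f M l + g M l := by
  obtain ⟨C, hC⟩ := hf
  obtain ⟨D, hD⟩ := hg
  refine ⟨C + D + 1, fun M l hM => ?_⟩
  have h2 := two_le_W hM l
  have h3 : (M * 2 ^ l) ^ C ≤ (M * 2 ^ l) ^ (C + D) := Nat.pow_le_pow_right (by omega) (by omega)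
  have h4 : (M * 2 ^ l) ^ D ≤ (M * 2 ^ l) ^ (C + D) := Nat.pow_le_pow_right (by omega) (by omega)
  have h5 := hC M l hM
  have h6 := hD M l hM
  calc f M l + g M l ≤ (M * 2 ^ l) ^ (C + D) * 2 := by omega
    _ ≤ (M * 2 ^ l) ^ (C + D) * (M * 2 ^ l) := Nat.mul_le_mul_left _ h2
    _ = _ := (pow_succ _ _).symm

end Crest.Agent.R129.A
end

-- ▼ part PVb/R129/A/Wiener
section

/-! # Bernstein's theorem with constants (task R129/A-Wiener). Statement frozen. -/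

set_option autoImplicit false
open scoped BigOperators

namespace Crest.Agent.R129.A

open MeasureTheory Filter Topology

theorem wn_haar : (AddCircle.haarAddCircle : Measure UnitAddCircle) = volume := by
  rw [AddCircle.volume_eq_smul_haarAddCircle]; simp

/-- Bessel's inequality for a bounded function with small support -/
theorem wn_bessel (G : C(UnitAddCircle, ℂ)) {S : Set UnitAddCircle} (hS : MeasurableSet S)
    {B m : ℝ} (hm : (volume : Measure UnitAddCircle).real S ≤ m) (hB : ∀ θ, ‖G θ‖ ≤ B)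
    (h0 : ∀ θ, θ ∉ S → G θ = 0) (T : Finset ℤ) :
    ∑ k ∈ T, ‖fourierCoeff G k‖ ^ 2 ≤ B ^ 2 * m := by
  have h1 := hasSum_sq_fourierCoeff (ContinuousMap.toLp (E := ℂ) 2 AddCircle.haarAddCircle ℂ G)
  simp_rw [fourierCoeff_toLp] at h1
  refine (sum_le_hasSum T (fun _ _ => by positivity) h1).trans ?_
  have h2 : ∫ t, ‖(ContinuousMap.toLp (E := ℂ) 2 AddCircle.haarAddCircle ℂ G) t‖ ^ 2
      ∂AddCircle.haarAddCircle = ∫ t, ‖G t‖ ^ 2 ∂AddCircle.haarAddCircle := by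
    refine integral_congr_ae ?_
    filter_upwards [ContinuousMap.coeFn_toLp (p := 2) (μ := AddCircle.haarAddCircle) (𝕜 := ℂ) G]
      with t e
    rw [e]
  rw [h2, wn_haar, ← setIntegral_eq_integral_of_forall_compl_eq_zero (s := S)
    (fun θ hθ => by rw [h0 θ hθ]; simp)]
  refine (Real.le_norm_self _).trans ((norm_setIntegral_le_of_norm_le_const (C := B ^ 2)
    (measure_lt_top _ _) fun θ _ => ?_).trans ?_)
  · rw [Real.norm_eq_abs, abs_of_nonneg (by positivity)]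
    exact pow_le_pow_left₀ (norm_nonneg _) (hB θ) 2
  · gcongr

theorem wn_shift (G : C(UnitAddCircle, ℂ)) (h : UnitAddCircle) (k : ℤ) :
    fourierCoeff (fun θ => G (θ + h) - G θ) k = (fourier k h - 1) * fourierCoeff G k := by
  have hi : ∀ {F : UnitAddCircle → ℂ}, Continuous F → Integrable F AddCircle.haarAddCircle :=
    fun hF => hF.integrable_of_hasCompactSupport (HasCompactSupport.of_compactSpace _)
  unfold fourierCoeff
  simp only [smul_eq_mul, mul_sub]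
  rw [integral_sub (hi (by fun_prop)) (hi (by fun_prop)), sub_mul, one_mul, ← integral_const_mul,
    ← integral_add_right_eq_self (fun θ => fourier k h * (fourier (-k) θ * G θ)) h]
  congr 2
  funext θ
  rw [← mul_assoc]
  congr 1
  simp only [fourier_apply, smul_add, AddCircle.toCircle_add, neg_smul, AddCircle.toCircle_neg,
    Circle.coe_mul, Circle.coe_inv]
  have := Circle.coe_ne_zero (AddCircle.toCircle (k • h))
  field_simp

theorem wn_lower (k : ℤ) (h : ℝ) (hk : |(k : ℝ) * h| ≤ 1 / 2) :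
    4 * |(k : ℝ) * h| ≤ ‖fourier k (h : UnitAddCircle) - 1‖ := by
  have e : fourier k (h : UnitAddCircle) = Complex.exp (Complex.I * (2 * Real.pi * (k * h) : ℝ)) := by
    rw [fourier_coe_apply]; congr 1; push_cast; ring
  have hp := Real.pi_pos
  rw [e, Complex.norm_exp_I_mul_ofReal_sub_one, Real.norm_eq_abs, abs_mul 2, abs_two]
  have h1 : 2 * Real.pi * (k * h) / 2 = Real.pi * (k * h) := by ring
  have h2 := Real.mul_abs_le_abs_sin (x := Real.pi * (k * h))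
    (by rw [abs_mul, abs_of_pos hp]; nlinarith)
  rw [abs_mul Real.pi, abs_of_pos hp, ← mul_assoc, div_mul_cancel₀ _ hp.ne'] at h2
  rw [h1]; linarith

theorem wn_inv_sq (J : ℕ) (hJ : 1 ≤ J) (T : Finset ℤ) (hT : ∀ k ∈ T, (J : ℤ) ≤ |k|) :
    ∑ k ∈ T, (((k : ℝ)) ^ 2)⁻¹ ≤ 4 / J := by
  classical
  obtain ⟨n, hn⟩ : ∃ n : ℕ, ∀ k ∈ T, k.natAbs < n :=
    ⟨T.sup Int.natAbs + 1, fun k hk => Nat.lt_succ_of_le (Finset.le_sup (f := Int.natAbs) hk)⟩
  have h1 := sum_Ioo_inv_sq_le (α := ℝ) (J - 1) n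
  have h2 : ((J - 1 : ℕ) : ℝ) + 1 = J := by rw [Nat.cast_sub hJ]; simp
  rw [h2] at h1
  have hsub : T ⊆ (Finset.Ioo (J - 1) n).image (fun i : ℕ => (i : ℤ)) ∪
      (Finset.Ioo (J - 1) n).image (fun i : ℕ => -(i : ℤ)) := by
    intro k hk
    have a1 := hT k hk
    have a2 := hn k hk
    rw [Int.abs_eq_natAbs] at a1
    simp only [Finset.mem_union, Finset.mem_image, Finset.mem_Ioo]
    rcases Int.natAbs_eq k with e | e
    · exact Or.inl ⟨k.natAbs, ⟨by omega, a2⟩, e.symm⟩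
    · exact Or.inr ⟨k.natAbs, ⟨by omega, a2⟩, e.symm⟩
  refine (Finset.sum_le_sum_of_subset_of_nonneg hsub fun _ _ _ => by positivity).trans ?_
  have h3 := Finset.sum_union_inter (f := fun k : ℤ => (((k : ℝ)) ^ 2)⁻¹)
    (s₁ := (Finset.Ioo (J - 1) n).image (fun i : ℕ => (i : ℤ)))
    (s₂ := (Finset.Ioo (J - 1) n).image (fun i : ℕ => -(i : ℤ)))
  rw [Finset.sum_image (fun a _ b _ e => by exact_mod_cast e),
    Finset.sum_image (fun a _ b _ e => by exact_mod_cast neg_injective e)] at h3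
  simp only [Int.cast_neg, Int.cast_natCast, neg_sq] at h3
  have h4 : 0 ≤ ∑ k ∈ (Finset.Ioo (J - 1) n).image (fun i : ℕ => (i : ℤ)) ∩
      (Finset.Ioo (J - 1) n).image (fun i : ℕ => -(i : ℤ)), (((k : ℝ)) ^ 2)⁻¹ :=
    Finset.sum_nonneg fun _ _ => by positivity
  have h5 : (4 : ℝ) / J = 2 / J + 2 / J := by ring
  linarith

theorem wn_lip {f : ℝ → ℝ} {L : NNReal} (hf : LipschitzWith L f) (h1 : f (1 / 2) = 0)
    (h2 : f (-(1 / 2)) = 0) : LipschitzWith L fun x => f (x - round x) := by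
  refine LipschitzWith.of_dist_le_mul fun x y => ?_
  wlog hxy : round x ≤ round y generalizing x y
  · rw [dist_comm, dist_comm x]; exact this y x (le_of_not_ge hxy)
  rcases hxy.eq_or_lt with e | e
  · refine (hf.dist_le_mul _ _).trans (le_of_eq ?_)
    rw [e, dist_sub_right]
  · have a1 := hf.dist_le_mul (x - round x) (1 / 2)
    have a2 := hf.dist_le_mul (-(1 / 2)) (y - round y)
    have b1 := abs_le.1 (abs_sub_round x)
    have b2 := abs_le.1 (abs_sub_round y)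
    have e' : (round x : ℝ) + 1 ≤ round y := by exact_mod_cast e
    rw [h1, Real.dist_eq (x - round x), abs_of_nonpos (by linarith)] at a1
    rw [h2, Real.dist_eq (-(1 / 2)), abs_of_nonpos (by linarith)] at a2
    refine (dist_triangle _ 0 _).trans ((add_le_add a1 a2).trans ?_)
    rw [← mul_add, Real.dist_eq, abs_sub_comm]
    exact mul_le_mul_of_nonneg_left (le_trans (by linarith) (le_abs_self _)) L.2

/-- Let `F x = f (x - round x)`; it is `1`-periodic and `L`-Lipschitz (`f` vanishes at `± 1/2`), so it defines a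
continuous function on `AddCircle 1` with Fourier coefficients `c k` (`fourierCoeff`).
* `|f| ≤ L ℓ ≤ A` (compare with `f a = 0`), hence `‖c k‖ ≤ ∫ |F| ≤ A ℓ`.
* The coefficients of `F (· + h) - F` are `(e(k h) - 1) c k`; this function is bounded by `L h` and vanishes
  outside a set of measure `≤ 2 ℓ`, so Parseval (`tsum_sq_fourierCoeff`) gives
  `∑ ‖e(k h) - 1‖² ‖c k‖² ≤ 2 ℓ L² h²`.  For `J ≤ |k| < 2 J` and `h = 1/(4J)`, `‖e(k h) - 1‖² ≥ 2`; Cauchy–Schwarz over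
  the `2 J` indices: `∑_{J ≤ |k| < 2J} ‖c k‖ ≤ A / (2 √2 √(ℓ J))`.  Summing over `J 2^r`:
  `∑_{J ≤ |k|} ‖c k‖ ≤ 1.25 A / √(ℓ J)` for every natural `J ≥ 1`.
* `J₀ = ⌈1/ℓ⌉₊ ≤ 2/ℓ` gives `∑ ‖c k‖ ≤ 4 A + 1.25 A`; truncate at `J₁ = ⌈2/(ε² ℓ)⌉₊` and use
  `has_pointwise_sum_fourier_series_of_summable`. -/
theorem wiener (f : ℝ → ℝ) (L : NNReal) (a ℓ A ε : ℝ) (hf : LipschitzWith L f)
    (hs : ∀ y, f y ≠ 0 → a < y ∧ y < a + ℓ) (ha : -(1 / 2) ≤ a) (ha' : a + ℓ ≤ 1 / 2) (hℓ : 0 < ℓ)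
    (hA : (L : ℝ) * ℓ ≤ A) (hε : 0 < ε) (hε1 : ε ≤ 1) :
    (∀ y, |f y| ≤ A) ∧ ∃ P : ℤ →₀ ℂ, l1 P ≤ 10 * A ∧
      (∀ x : ℝ, ‖tev1 P x - (f (x - round x) : ℝ)‖ ≤ ε * A) ∧
      ∀ k ∈ P.support, |(k : ℝ)| ≤ 10 / (ε ^ 2 * ℓ) := by
  classical
  have hL : (0 : ℝ) ≤ L := L.2
  have hA0 : 0 ≤ A := le_trans (by positivity) hA
  have hℓ1 : ℓ ≤ 1 := by linarith
  have hz : ∀ y, ¬ (a < y ∧ y < a + ℓ) → f y = 0 := fun y hy => by
    by_contra h; exact hy (hs y h)
  have hfA : ∀ y, |f y| ≤ A := by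
    intro y
    by_cases h : f y = 0
    · rw [h, abs_zero]; exact hA0
    · obtain ⟨h1, h2⟩ := hs y h
      have := hf.dist_le_mul y a
      rw [hz a (fun h => lt_irrefl _ h.1), Real.dist_eq, Real.dist_eq, sub_zero,
        abs_of_pos (sub_pos.2 h1)] at this
      refine this.trans (le_trans ?_ hA)
      gcongr; linarith
  refine ⟨hfA, ?_⟩
  have hg := wn_lip hf (hz _ fun h => by linarith [h.2]) (hz _ fun h => by linarith [h.1])
  have hper : Function.Periodic (fun x : ℝ => ((f (x - round x) : ℝ) : ℂ)) 1 := fun x => by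
    simp only [round_add_one]; push_cast; ring_nf
  let F : C(UnitAddCircle, ℂ) := ⟨hper.lift,
    Continuous.quotient_liftOn' (Complex.continuous_ofReal.comp hg.continuous) _⟩
  have hF : ∀ x : ℝ, F (x : UnitAddCircle) = ((f (x - round x) : ℝ) : ℂ) := fun x => rfl
  have hball : ∀ c : UnitAddCircle,
      (volume : Measure UnitAddCircle).real (Metric.closedBall c (ℓ / 2)) ≤ ℓ := fun c => by
    rw [Measure.real, AddCircle.volume_closedBall, ENNReal.toReal_ofReal (by positivity)]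
    exact (min_le_right _ _).trans (by linarith)
  have hsupp : ∀ θ, θ ∉ Metric.closedBall ((a + ℓ / 2 : ℝ) : UnitAddCircle) (ℓ / 2) → F θ = 0 := by
    intro θ hθ
    induction θ using QuotientAddGroup.induction_on with
    | H x =>
      rw [hF, hz _ fun h => hθ ?_, Complex.ofReal_zero]
      have e : (x : UnitAddCircle) = ((x - round x : ℝ) : UnitAddCircle) := by
        rw [AddCircle.coe_sub, eq_comm, sub_eq_self, AddCircle.coe_eq_zero_iff]
        exact ⟨round x, by simp⟩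
      rw [Metric.mem_closedBall, e, dist_eq_norm, ← AddCircle.coe_sub]
      refine (QuotientAddGroup.norm_mk_le_norm).trans ?_
      rw [Real.norm_eq_abs, abs_le]
      constructor <;> linarith [h.1, h.2]
  set c : ℤ → ℂ := fourierCoeff F with hc
  have hc2 : ∀ T : Finset ℤ, ∑ k ∈ T, ‖c k‖ ^ 2 ≤ A ^ 2 * ℓ :=
    wn_bessel F Metric.isClosed_closedBall.measurableSet (hball _) (fun θ => by
      induction θ using QuotientAddGroup.induction_on with
      | H x => rw [hF, Complex.norm_real]; exact hfA _) hsupp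
  have hc3 : ∀ T : Finset ℤ, ∑ k ∈ T, (|(k : ℝ)| * ‖c k‖) ^ 2 ≤ L ^ 2 * ℓ / 8 := by
    intro T
    obtain ⟨n, hn⟩ : ∃ n : ℕ, ∀ k ∈ T, k.natAbs ≤ n :=
      ⟨T.sup Int.natAbs, fun k hk => Finset.le_sup (f := Int.natAbs) hk⟩
    set h : ℝ := 1 / (2 * (n + 1)) with hh
    have hh0 : 0 < h := by positivity
    have h1 := wn_bessel ⟨fun θ => F (θ + (h : UnitAddCircle)) - F θ, by fun_prop⟩
      (S := Metric.closedBall ((a + ℓ / 2 : ℝ) - (h : UnitAddCircle)) (ℓ / 2) ∪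
        Metric.closedBall ((a + ℓ / 2 : ℝ) : UnitAddCircle) (ℓ / 2))
      (Metric.isClosed_closedBall.measurableSet.union Metric.isClosed_closedBall.measurableSet)
      (B := L * h) (m := ℓ + ℓ)
      ((measureReal_union_le _ _).trans (add_le_add (hball _) (hball _)))
      (fun θ => by
        induction θ using QuotientAddGroup.induction_on with
        | H x =>
          simp only [ContinuousMap.coe_mk]
          rw [← AddCircle.coe_add, hF, hF, ← Complex.ofReal_sub, Complex.norm_real]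
          have := hg.dist_le_mul (x + h) x
          rwa [Real.dist_eq, Real.dist_eq, add_sub_cancel_left, abs_of_pos hh0] at this)
      (fun θ hθ => by
        rw [Set.mem_union, not_or] at hθ
        simp only [ContinuousMap.coe_mk]
        rw [hsupp θ hθ.2, hsupp _ fun h' => hθ.1 ?_, sub_zero]
        rw [Metric.mem_closedBall, dist_eq_norm] at h' ⊢
        convert h' using 2
        abel) T
    simp only [ContinuousMap.coe_mk, wn_shift, ← hc] at h1
    have h2 : ∑ k ∈ T, (4 * h) ^ 2 * (|(k : ℝ)| * ‖c k‖) ^ 2 ≤ (L * h) ^ 2 * (ℓ + ℓ) := by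
      refine le_trans (Finset.sum_le_sum fun k hk => ?_) h1
      have h3 : |(k : ℝ)| ≤ n := by
        have := hn k hk
        rw [← Int.cast_abs, Int.abs_eq_natAbs]; exact_mod_cast this
      have h4 := wn_lower k h (by
        rw [abs_mul, abs_of_pos hh0, hh, mul_one_div, div_le_iff₀ (by positivity)]; linarith)
      rw [abs_mul, abs_of_pos hh0] at h4
      rw [← mul_pow, norm_mul]
      refine pow_le_pow_left₀ (by positivity) ?_ 2
      calc _ = 4 * (|(k : ℝ)| * h) * ‖c k‖ := by ring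
        _ ≤ _ := by gcongr
    rw [← Finset.mul_sum] at h2
    refine le_of_mul_le_mul_left (h2.trans (le_of_eq ?_)) (by positivity : 0 < (4 * h) ^ 2)
    ring
  have htail : ∀ (J : ℕ) (δ : ℝ), 0 < δ → 1 / (δ ^ 2 * ℓ) ≤ J → ∀ T : Finset ℤ,
      (∀ k ∈ T, (J : ℤ) ≤ |k|) → ∑ k ∈ T, ‖c k‖ ≤ δ * A := by
    intro J δ hδ hJ T hT
    have hJ0 : (0 : ℝ) < J := lt_of_lt_of_le (by positivity) hJ
    have hJ1 : 1 ≤ J := by exact_mod_cast hJ0
    have h1 := Finset.sum_mul_sq_le_sq_mul_sq T (fun k : ℤ => |(k : ℝ)| * ‖c k‖)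
      (fun k : ℤ => |(k : ℝ)|⁻¹)
    have h2 : ∑ k ∈ T, |(k : ℝ)| * ‖c k‖ * |(k : ℝ)|⁻¹ = ∑ k ∈ T, ‖c k‖ := by
      refine Finset.sum_congr rfl fun k hk => ?_
      have : (0 : ℝ) < |(k : ℝ)| := hJ0.trans_le (by exact_mod_cast hT k hk)
      field_simp
    simp only [inv_pow, sq_abs] at h1
    rw [h2] at h1
    refine (pow_le_pow_iff_left₀ (by positivity) (by positivity) two_ne_zero).1 (h1.trans ?_)
    have h3 : 1 / (J : ℝ) ≤ δ ^ 2 * ℓ := by
      rwa [one_div_le hJ0 (by positivity)]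
    calc _ ≤ (L ^ 2 * ℓ / 8) * (4 / J) :=
          mul_le_mul (hc3 T) (wn_inv_sq J hJ1 T hT) (by positivity) (by positivity)
      _ = L ^ 2 * ℓ / 2 * (1 / J) := by ring
      _ ≤ L ^ 2 * ℓ / 1 * (δ ^ 2 * ℓ) := by gcongr; norm_num
      _ = (δ * (L * ℓ)) ^ 2 := by ring
      _ ≤ _ := by gcongr
  have hall : ∀ T : Finset ℤ, ∑ k ∈ T, ‖c k‖ ≤ 10 * A := by
    intro T
    set J := ⌈1 / ℓ⌉₊ with hJ
    rw [← Finset.sum_filter_add_sum_filter_not T fun k => (J : ℤ) ≤ |k|]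
    have h1 := htail J 1 one_pos (by rw [one_pow, one_mul]; exact Nat.le_ceil _) _
      fun k hk => (Finset.mem_filter.1 hk : k ∈ T ∧ _).2
    have h2 : ∑ k ∈ T.filter fun k => ¬ (J : ℤ) ≤ |k|, ‖c k‖ ≤ 9 * A := by
      refine (pow_le_pow_iff_left₀ (by positivity) (by positivity) two_ne_zero).1
        (sq_sum_le_card_mul_sum_sq.trans ?_)
      have h3 : (T.filter fun k => ¬ (J : ℤ) ≤ |k|).card ≤ 2 * J + 1 := by
        have : (T.filter fun k => ¬ (J : ℤ) ≤ |k|) ⊆ Finset.Icc (-(J : ℤ)) J := fun k hk =>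
          Finset.mem_Icc.2 (abs_le.1 (not_le.1 (Finset.mem_filter.1 hk).2).le)
        have := Finset.card_le_card this
        rw [Int.card_Icc] at this
        omega
      have h4 : (J : ℝ) * ℓ ≤ 2 := by
        have := (Nat.ceil_lt_add_one (by positivity : 0 ≤ 1 / ℓ)).le
        calc _ ≤ (1 / ℓ + 1) * ℓ := by gcongr
          _ = 1 + ℓ := by field_simp
          _ ≤ 2 := by linarith
      calc _ ≤ ((2 * J + 1 : ℕ) : ℝ) * (A ^ 2 * ℓ) :=
            mul_le_mul (by exact_mod_cast h3) (hc2 _) (by positivity) (by positivity)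
        _ = (2 * (J * ℓ) + ℓ) * A ^ 2 := by push_cast; ring
        _ ≤ 81 * A ^ 2 := by gcongr; linarith
        _ = _ := by ring
    linarith
  have hsum : Summable c := .of_norm (summable_of_sum_le (fun _ => norm_nonneg _) hall)
  set J := ⌈1 / (ε ^ 2 * ℓ)⌉₊ with hJ
  set S : Finset ℤ := Finset.Ioo (-(J : ℤ)) J with hS
  refine ⟨Finsupp.onFinset S (fun k => if k ∈ S then c k else 0) (fun k hk => by
    by_contra h; simp [h] at hk), ?_, fun x => ?_, fun k hk => ?_⟩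
  · unfold l1
    rw [Finsupp.onFinset_sum _ (by simp)]
    refine le_trans (le_of_eq (Finset.sum_congr rfl fun k hk => by rw [if_pos hk])) (hall S)
  · unfold tev1
    rw [Finsupp.onFinset_sum _ (by simp), ← hF]
    have e : ∑ k ∈ S, (if k ∈ S then c k else 0)
        * Complex.exp (2 * Real.pi * Complex.I * (((k : ℝ) * x : ℝ) : ℂ))
        = ∑ k ∈ S, c k • fourier k (x : UnitAddCircle) := by
      refine Finset.sum_congr rfl fun k hk => ?_
      rw [if_pos hk, fourier_coe_apply, smul_eq_mul]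
      congr 2; push_cast; ring
    rw [e]
    have h1 := has_pointwise_sum_fourier_series_of_summable hsum (x : UnitAddCircle)
    refine le_of_tendsto ((Tendsto.const_sub _ h1).norm) ?_
    filter_upwards [eventually_ge_atTop S] with T hT
    rw [← Finset.sum_sdiff hT, sub_add_cancel_right, norm_neg]
    refine (norm_sum_le _ _).trans (le_trans (le_of_eq ?_)
      (htail J ε hε (Nat.le_ceil _) (T \ S) fun k hk => ?_))
    · refine Finset.sum_congr rfl fun k _ => ?_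
      rw [norm_smul, fourier_apply, Circle.norm_coe, mul_one]
    · have := (Finset.mem_sdiff.1 hk).2
      rw [hS, Finset.mem_Ioo, ← abs_lt, not_lt] at this
      exact this
  · have h1 := Finsupp.support_onFinset_subset hk
    rw [hS, Finset.mem_Ioo, ← abs_lt] at h1
    have h2 : |(k : ℝ)| + 1 ≤ J := by exact_mod_cast h1
    have h3 := (Nat.ceil_lt_add_one (by positivity : 0 ≤ 1 / (ε ^ 2 * ℓ))).le
    have h4 : 1 / (ε ^ 2 * ℓ) ≤ 10 / (ε ^ 2 * ℓ) := by gcongr; norm_num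
    linarith

end Crest.Agent.R129.A
end

-- ▼ part PVb/R129/A/ThLip
section

/-! # The `θ` factor is Lipschitz at its own scale (task R129/A-ThLip). Statement frozen. -/

set_option autoImplicit false
open scoped BigOperators

namespace Crest.Agent.R129.A

/-- bounded by `B` and Lipschitz with constant `B * Λ` -/
def TlBL (f : ℝ → ℝ) (B Λ : ℝ) : Prop :=
  (∀ x, |f x| ≤ B) ∧ ∀ x y, |f x - f y| ≤ B * Λ * |x - y|

theorem TlBL.mul {f g : ℝ → ℝ} {B B' Λ Λ' : ℝ} (hf : TlBL f B Λ) (hg : TlBL g B' Λ') :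
    TlBL (fun x => f x * g x) (B * B') (Λ + Λ') := by
  have hB : 0 ≤ B := (abs_nonneg _).trans (hf.1 0)
  have hB' : 0 ≤ B' := (abs_nonneg _).trans (hg.1 0)
  refine ⟨fun x => ?_, fun x y => ?_⟩
  · rw [abs_mul]
    exact mul_le_mul (hf.1 x) (hg.1 x) (abs_nonneg _) hB
  · have e : f x * g x - f y * g y = (f x - f y) * g x + f y * (g x - g y) := by ring
    rw [e]
    refine (abs_add_le _ _).trans ?_
    rw [abs_mul, abs_mul]
    have h1 : |f x - f y| * |g x| ≤ B * Λ * |x - y| * B' :=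
      mul_le_mul (hf.2 x y) (hg.1 x) (abs_nonneg _) ((abs_nonneg _).trans (hf.2 x y))
    have h2 : |f y| * |g x - g y| ≤ B * (B' * Λ' * |x - y|) :=
      mul_le_mul (hf.1 y) (hg.2 x y) (abs_nonneg _) hB
    nlinarith

theorem TlBL.pow {f : ℝ → ℝ} {B Λ : ℝ} (hf : TlBL f B Λ) (D : ℕ) :
    TlBL (fun x => f x ^ D) (B ^ D) (D * Λ) := by
  induction D with
  | zero => exact ⟨fun x => by simp, fun x y => by simp⟩
  | succ D ih =>
    have := ih.mul hf
    simp only [← pow_succ] at this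
    push_cast
    rwa [add_mul, one_mul]

theorem tl_clamp (c d x y : ℝ) : |max c (min d x) - max c (min d y)| ≤ |x - y| := by
  have h1 := le_abs_self (x - y)
  have h2 := neg_abs_le (x - y)
  rw [abs_le]
  simp only [max_def, min_def]
  split_ifs <;> constructor <;> linarith

theorem tl_ramp {P : ℝ} (hP : 2 ≤ P) (k : ℤ) (u u' : ℝ) :
    |ramp P k u - ramp P k u'| ≤ |u - u'| / (wp P (k + 1) - wp P k) := by
  have hI : 0 < wp P (k + 1) - wp P k := sub_pos.2 (wp_strictMono hP (by omega))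
  refine (tl_clamp _ _ _ _).trans (le_of_eq ?_)
  rw [← sub_div, abs_div, abs_of_pos hI, sub_sub_sub_cancel_right]

theorem tl_trig {P : ℝ} (hP : 2 ≤ P) (k : ℤ) (β c : ℝ) (hβ : 0 ≤ β) (T : ℝ → ℝ)
    (h1 : ∀ x, |T x| ≤ 1) (h2 : ∀ x y, |T x - T y| ≤ |x - y|) :
    TlBL (fun θ => T (Real.pi / 2 * ramp P k (β * θ - c))) 1
      (2 * β / (wp P (k + 1) - wp P k)) := by
  have hI : 0 < wp P (k + 1) - wp P k := sub_pos.2 (wp_strictMono hP (by omega))
  refine ⟨fun x => h1 _, fun x y => (h2 _ _).trans ?_⟩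
  rw [← mul_sub, abs_mul, abs_of_pos (by positivity : 0 < Real.pi / 2)]
  have h3 := tl_ramp hP k (β * x - c) (β * y - c)
  rw [sub_sub_sub_cancel_right, ← mul_sub, abs_mul, abs_of_nonneg hβ] at h3
  have h4 : Real.pi / 2 ≤ 2 := by linarith [Real.pi_le_four]
  refine (mul_le_mul h4 h3 (abs_nonneg _) zero_le_two).trans (le_of_eq ?_)
  ring

theorem tl_sqrt {P : ℝ} (hP : 2 ≤ P) (γ κ τ : ℝ) (hτ : 0 < τ) :
    TlBL (fun θ => Real.sqrt (max (1 / P ^ 2) (min (P ^ 2) ((γ * θ - κ) / τ)))) P (|γ| / τ) := by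
  have hP0 : 0 < P := by linarith
  have hPP : 1 / P ^ 2 ≤ P ^ 2 := by
    rw [div_le_iff₀ (by positivity)]
    have : 1 ≤ P ^ 2 := by nlinarith
    nlinarith
  have hlow : ∀ z, 1 / P ^ 2 ≤ z → 1 / P ≤ Real.sqrt z := by
    intro z hz
    refine Real.le_sqrt_of_sq_le ?_
    rwa [div_pow, one_pow]
  refine ⟨fun x => ?_, fun x y => ?_⟩
  · rw [abs_of_nonneg (Real.sqrt_nonneg _)]
    exact Real.sqrt_le_iff.2 ⟨hP0.le, max_le hPP (min_le_left _ _)⟩
  · set z := max (1 / P ^ 2) (min (P ^ 2) ((γ * x - κ) / τ)) with hz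
    set w := max (1 / P ^ 2) (min (P ^ 2) ((γ * y - κ) / τ)) with hw
    have hz1 : 1 / P ^ 2 ≤ z := le_max_left _ _
    have hw1 : 1 / P ^ 2 ≤ w := le_max_left _ _
    have h0 : 0 < 1 / P ^ 2 := by positivity
    have h1 : |z - w| ≤ |γ| / τ * |x - y| := by
      refine (tl_clamp _ _ _ _).trans (le_of_eq ?_)
      rw [← sub_div, abs_div, abs_of_pos hτ, sub_sub_sub_cancel_right, ← mul_sub, abs_mul]
      ring
    have h2 : z - w = (Real.sqrt z - Real.sqrt w) * (Real.sqrt z + Real.sqrt w) := by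
      have e1 := Real.mul_self_sqrt (h0.le.trans hz1)
      have e2 := Real.mul_self_sqrt (h0.le.trans hw1)
      linear_combination -e1 + e2
    have h3 : 1 / P ≤ Real.sqrt z + Real.sqrt w := by
      linarith [hlow z hz1, Real.sqrt_nonneg w]
    have h4 : |Real.sqrt z - Real.sqrt w| * (1 / P) ≤ |z - w| := by
      rw [h2, abs_mul, abs_of_nonneg (add_nonneg (Real.sqrt_nonneg z) (Real.sqrt_nonneg w))]
      exact mul_le_mul_of_nonneg_left h3 (abs_nonneg _)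
    rw [mul_one_div, div_le_iff₀ hP0] at h4
    have h5 := mul_le_mul_of_nonneg_right h1 hP0.le
    show |Real.sqrt z - Real.sqrt w| ≤ _
    linarith

theorem tl_I_up {P : ℝ} (hP : 2 ≤ P) (k : ℤ) :
    wp P (k + 1 + 1) - wp P (k + 1) ≤ P * (wp P (k + 1) - wp P k) := by
  rw [wp_succ_sub hP, wp_succ_sub hP]
  have h1 := wp_succ_le hP k
  have h2 : wp P (-(k + 1) - 1) ≤ wp P (-k - 1) := (wp_strictMono hP).monotone (by omega)
  have h3 := wp_pos hP (-(k + 1) - 1)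
  have h4 := wp_pos hP k
  have h5 : wp P (k + 1) * wp P (-(k + 1) - 1) ≤ P * wp P k * wp P (-k - 1) :=
    mul_le_mul h1 h2 h3.le (by positivity)
  have h6 := mul_le_mul_of_nonneg_left h5 (show 0 ≤ P - 1 by linarith)
  nlinarith

theorem tl_I_down {P : ℝ} (hP : 2 ≤ P) (k : ℤ) :
    wp P (k + 1) - wp P k ≤ P * (wp P (k + 1 + 1) - wp P (k + 1)) := by
  rw [wp_succ_sub hP, wp_succ_sub hP]
  have h1 := wp_succ_le hP (-(k + 1) - 1)
  rw [show -(k + 1) - 1 + 1 = -k - 1 by ring] at h1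
  have h2 : wp P k ≤ wp P (k + 1) := (wp_strictMono hP).monotone (by omega)
  have h3 := wp_pos hP (-k - 1)
  have h4 := wp_pos hP (k + 1)
  have h5 : wp P k * wp P (-k - 1) ≤ wp P (k + 1) * (P * wp P (-(k + 1) - 1)) :=
    mul_le_mul h2 h1 h3.le h4.le
  have h6 := mul_le_mul_of_nonneg_left h5 (show 0 ≤ P - 1 by linarith)
  nlinarith

theorem tl_delta {P : ℝ} (hP : 2 ≤ P) (m : ℤ) :
    wp P (m + 2) - wp P (m - 1) ≤ 3 * P ^ 2 * (wp P (m - 1 + 1) - wp P (m - 1)) ∧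
    wp P (m + 2) - wp P (m - 1) ≤ 3 * P ^ 2 * (wp P (m + 1 + 1) - wp P (m + 1)) ∧
    wp P (m + 2) - wp P (m - 1) ≤ P ^ 2 * wp P m ∧
    wp P (m + 2) - wp P (m - 1) ≤ P ^ 2 * wp P (-m) ∧
    1 ≤ (wp P (m + 2) - wp P (m - 1)) * (4 * P ^ (m.natAbs + 1)) := by
  have hP0 : 0 < P := by linarith
  have a1 := tl_I_up hP (m - 1)
  have a2 := tl_I_up hP m
  have a3 := tl_I_down hP (m - 1)
  have a4 := tl_I_down hP m
  rw [show m - 1 + 1 = m by ring] at a1 a3 ⊢
  rw [show m + 1 + 1 = m + 2 by ring] at a2 a4 ⊢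
  have b1 : 0 < wp P m - wp P (m - 1) := sub_pos.2 (wp_strictMono hP (by omega))
  have b2 : 0 < wp P (m + 1) - wp P m := sub_pos.2 (wp_strictMono hP (by omega))
  have b3 : 0 < wp P (m + 2) - wp P (m + 1) := sub_pos.2 (wp_strictMono hP (by omega))
  have hP1 : P ≤ P ^ 2 := by nlinarith
  have hP2 : 1 ≤ P ^ 2 := by nlinarith
  refine ⟨?_, ?_, ?_, ?_, ?_⟩
  · have c1 := mul_le_mul_of_nonneg_left a1 hP0.le
    have c2 := mul_le_mul_of_nonneg_right hP1 b1.le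
    have c3 := mul_le_mul_of_nonneg_right hP2 b1.le
    nlinarith
  · have c1 := mul_le_mul_of_nonneg_left a4 hP0.le
    have c2 := mul_le_mul_of_nonneg_right hP1 b3.le
    have c3 := mul_le_mul_of_nonneg_right hP2 b3.le
    nlinarith
  · have c1 := wp_succ_le hP m
    have c2 := wp_succ_le hP (m + 1)
    rw [show m + 1 + 1 = m + 2 by ring] at c2
    have c3 := mul_le_mul_of_nonneg_left c1 hP0.le
    have c4 := wp_pos hP (m - 1)
    nlinarith
  · have c1 := wp_succ_le hP (-m)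
    have c2 := wp_neg hP (m - 1)
    rw [show -(m - 1) = -m + 1 by ring] at c2
    have c3 := wp_neg hP (m + 2)
    have c4 := wp_pos hP (-(m + 2))
    have c5 := mul_le_mul_of_nonneg_right hP1 (wp_pos hP (-m)).le
    linarith
  · have c1 := wp_lower hP m
    have c2 := wp_lower hP (-m - 1)
    have c3 := wp_succ_sub hP m
    have c4 := wp_pos hP m
    have c5 := wp_pos hP (-m - 1)
    have c6 : wp P m * wp P (-m - 1) ≤ wp P (m + 2) - wp P (m - 1) := by
      have := mul_le_mul_of_nonneg_right (show 1 ≤ P - 1 by linarith) (mul_pos c4 c5).le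
      nlinarith
    have c7 : P ^ (-m).toNat * P ^ (-(-m - 1)).toNat ≤ P ^ (m.natAbs + 1) := by
      rw [← pow_add]
      exact pow_le_pow_right₀ (by linarith) (by omega)
    have c8 := mul_le_mul c1 c2 zero_le_one (by positivity)
    calc (1 : ℝ) ≤ _ := by simpa only [one_mul] using c8
      _ = wp P m * wp P (-m - 1) * (4 * (P ^ (-m).toNat * P ^ (-(-m - 1)).toNat)) := by ring
      _ ≤ _ := mul_le_mul c6 (by linarith) (by positivity) (by linarith)


/-- Take `a`, `a + ℓ` = the points with `uu = wp (m-1)`, `wp (m+2)`, so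
`ℓ = (wp (m+2) - wp (m-1)) / (b (b+1))`.  With `D = card (Idx n)`,
`Th = chi ∘ uu · ∏_s g_s ^ D`, `g_s θ = sqrt (max (1/P²) (min P² (phi s θ / tau s)))` (equal to `Th` by `phi_bounds`; both
vanish where `chi = 0`).  `|chi| ≤ 1`, `|g_s| ≤ P`; `g_s` is Lipschitz with constant `P |bet s| / tau s`
(`sqrt` is `P/2`-Lipschitz on `[1/P², ∞)`), and `|bet s| ℓ / tau s ≤ P²` since
`wp (m+2) - wp (m-1) ≤ min (wp (m+2)) (wp (-m+1))`; `chi ∘ uu` is Lipschitz with constant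
`2 b (b+1) (1/|I (m-1)| + 1/|I (m+1)|)`, `|I k| = wp (k+1) - wp k = (P-1) wp k wp (-k-1)` (`wp_succ_sub`), and
`|I (k+1)| ≤ P |I k|`, `|I k| ≤ P |I (k+1)|`, so `(wp (m+2) - wp (m-1)) / |I (m±1)| ≤ 3 P²`.  A product of bounded
Lipschitz functions is Lipschitz (prove a small lemma with explicit constants, e.g. for the predicate
`(∀ x, |f x| ≤ B) ∧ ∀ x y, |f x - f y| ≤ B * Λ * |x - y|`, which is multiplicative in `B` and additive in `Λ`).
Lower bound: `ℓ ≥ |I m| / (b+1)² ≥ wp m wp (-m-1) / (b+1)²` and `wp_lower`. -/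
theorem th_lip (n R : ℕ) : ∃ A : ℝ, 3 ≤ A ∧ ∀ v0 b : ℕ, (Par.mk n R v0 b).Ok → ∀ m : ℤ,
    ∃ (L : NNReal) (a ℓ : ℝ), LipschitzWith L ((Par.mk n R v0 b).Th m) ∧
      (∀ y, (Par.mk n R v0 b).Th m y ≠ 0 → a < y ∧ y < a + ℓ) ∧ -(1 / 2) ≤ a ∧ a + ℓ ≤ 1 / 2 ∧
      0 < ℓ ∧ (L : ℝ) * ℓ ≤ A ∧
      1 ≤ ℓ * (4 * ((b : ℝ) + 1) ^ 2 * ((R : ℝ) ^ n) ^ (m.natAbs + 1)) := by
  refine ⟨3 + (((R : ℝ) ^ n) ^ Fintype.card (Idx n) * ((R : ℝ) ^ n) ^ Fintype.card (Idx n)) *
    (12 * ((R : ℝ) ^ n) ^ 2 + 2 * Fintype.card (Idx n) * ((R : ℝ) ^ n) ^ 2),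
    le_add_of_nonneg_right (by positivity), fun v0 b hok m => ?_⟩
  set p : Par := Par.mk n R v0 b with hp
  set D := Fintype.card (Idx n) with hD
  set P : ℝ := (R : ℝ) ^ n with hPdef
  have hPP : (p.P : ℝ) = P := by simp [hp, Par.P, hPdef]
  have hP : 2 ≤ P := hPP ▸ hok.two_le_P
  have hP0 : 0 < P := by linarith
  have hb : (4 : ℝ) ≤ b := by exact_mod_cast hok.four_le_b
  have hb0 : (0 : ℝ) < b := by linarith
  set β : ℝ := b * ((b : ℝ) + 1) with hβ
  have hβ0 : 0 < β := by positivity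
  have huu : ∀ θ, p.uu θ = β * θ - b := by
    intro θ
    simp only [hp, Par.uu, hβ]
    ring
  obtain ⟨d1, d2, d3, d4, d5⟩ := tl_delta hP m
  set Δ := wp P (m + 2) - wp P (m - 1) with hΔ
  have hΔ0 : 0 < Δ := sub_pos.2 (wp_strictMono hP (by omega))
  have hI1 : 0 < wp P (m - 1 + 1) - wp P (m - 1) := sub_pos.2 (wp_strictMono hP (by omega))
  have hI2 : 0 < wp P (m + 1 + 1) - wp P (m + 1) := sub_pos.2 (wp_strictMono hP (by omega))
  have ht1 := hok.tau_pos m true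
  have ht2 := hok.tau_pos m false
  have f1 := tl_trig hP (m - 1) β b hβ0.le Real.sin Real.abs_sin_le_one Real.abs_sin_sub_sin_le
  have f2 := tl_trig hP (m + 1) β b hβ0.le Real.cos Real.abs_cos_le_one Real.abs_cos_sub_cos_le
  have g1 := (tl_sqrt hP (bet b true) (kap true) _ ht1).pow D
  have g2 := (tl_sqrt hP (bet b false) (kap false) _ ht2).pow D
  have hF := (f1.mul f2).mul (g1.mul g2)
  have hTh : p.Th m = fun θ => Real.sin (Real.pi / 2 * ramp P (m - 1) (β * θ - b)) *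
      Real.cos (Real.pi / 2 * ramp P (m + 1) (β * θ - b)) *
      (Real.sqrt (max (1 / P ^ 2) (min (P ^ 2)
        (((bet b true : ℝ) * θ - (kap true : ℝ)) / p.tau m true))) ^ D *
      Real.sqrt (max (1 / P ^ 2) (min (P ^ 2)
        (((bet b false : ℝ) * θ - (kap false : ℝ)) / p.tau m false))) ^ D) := by
    funext θ
    have e1 : Real.sin (Real.pi / 2 * ramp P (m - 1) (β * θ - b)) *
        Real.cos (Real.pi / 2 * ramp P (m + 1) (β * θ - b)) = chi p.P m (p.uu θ) := by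
      rw [hPP, huu, chi]
    rw [e1, Par.Th]
    by_cases hc : chi p.P m (p.uu θ) = 0
    · rw [hc, zero_mul, zero_mul]
    · have e2 : ∀ s, max (1 / P ^ 2) (min (P ^ 2)
          (((bet b s : ℝ) * θ - (kap s : ℝ)) / p.tau m s)) = phi p.b s θ / p.tau m s := by
        intro s
        have ht := hok.tau_pos m s
        obtain ⟨h1, h2⟩ := hok.phi_bounds hc s
        rw [hPP] at h1 h2
        change max (1 / P ^ 2) (min (P ^ 2) (phi p.b s θ / p.tau m s)) = _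
        rw [min_eq_right ((div_le_iff₀ ht).2 h2), max_eq_right]
        rw [div_le_div_iff₀ (by positivity) ht]
        linarith
      rw [e2, e2, Fintype.prod_bool]
  set Λ := 2 * β / (wp P (m - 1 + 1) - wp P (m - 1)) + 2 * β / (wp P (m + 1 + 1) - wp P (m + 1)) +
    ((D : ℝ) * (|(bet b true : ℝ)| / p.tau m true) + (D : ℝ) * (|(bet b false : ℝ)| / p.tau m false))
    with hΛ
  have hΛ0 : 0 ≤ Λ := by positivity
  have hw1 := wp_pos hP (m - 1)
  have hw2 : wp P (m + 2) ≤ 1 := by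
    have h1 := wp_neg hP (m + 2)
    have h2 := wp_pos hP (-(m + 2))
    linarith
  refine ⟨⟨1 * 1 * (P ^ D * P ^ D) * Λ, by positivity⟩, (wp P (m - 1) + b) / β, Δ / β, ?_, ?_, ?_,
    ?_, by positivity, ?_, ?_⟩
  · rw [hTh]
    exact LipschitzWith.of_dist_le_mul fun x y => hF.2 x y
  · intro y hy
    have hc : chi p.P m (p.uu y) ≠ 0 := left_ne_zero_of_mul hy
    rw [hPP, huu] at hc
    obtain ⟨h1, h2⟩ := chi_ne hP hc
    rw [← add_div, div_lt_iff₀ hβ0, lt_div_iff₀ hβ0]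
    constructor <;> linarith
  · have : 0 ≤ (wp P (m - 1) + b) / β := by positivity
    linarith
  · rw [← add_div, div_le_iff₀ hβ0]
    nlinarith
  · have e1 : 2 * β / (wp P (m - 1 + 1) - wp P (m - 1)) * (Δ / β) ≤ 6 * P ^ 2 := by
      rw [div_mul_div_comm, div_le_iff₀ (by positivity)]
      linear_combination 2 * mul_le_mul_of_nonneg_left d1 hβ0.le
    have e2 : 2 * β / (wp P (m + 1 + 1) - wp P (m + 1)) * (Δ / β) ≤ 6 * P ^ 2 := by
      rw [div_mul_div_comm, div_le_iff₀ (by positivity)]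
      linear_combination 2 * mul_le_mul_of_nonneg_left d2 hβ0.le
    have e3 : |(bet b true : ℝ)| / p.tau m true * (Δ / β) ≤ P ^ 2 := by
      have h1 : |(bet b true : ℝ)| = b + 1 := by
        simp only [bet, if_true]
        push_cast
        exact abs_of_pos (by linarith)
      have h2 : p.tau m true = wp P m / b := by
        rw [← hPP]; simp [Par.tau, sgn, hp]
      have h3 := wp_pos hP m
      have h4 : ((b : ℝ) + 1) / (wp P m / b) * (Δ / β) = Δ / wp P m := by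
        rw [hβ]; field_simp
      rw [h1, h2, h4, div_le_iff₀ h3]
      exact d3
    have e4 : |(bet b false : ℝ)| / p.tau m false * (Δ / β) ≤ P ^ 2 := by
      have h1 : |(bet b false : ℝ)| = b := by
        simp [bet]
      have h2 : p.tau m false = wp P (-m) / (b + 1) := by
        rw [← hPP]; simp [Par.tau, sgn, hp]
      have h3 := wp_pos hP (-m)
      have h4 : (b : ℝ) / (wp P (-m) / (b + 1)) * (Δ / β) = Δ / wp P (-m) := by
        rw [hβ]; field_simp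
      rw [h1, h2, h4, div_le_iff₀ h3]
      exact d4
    have e5 : Λ * (Δ / β) ≤ 12 * P ^ 2 + 2 * D * P ^ 2 := by
      have h1 := mul_le_mul_of_nonneg_left e3 (Nat.cast_nonneg (α := ℝ) D)
      have h2 := mul_le_mul_of_nonneg_left e4 (Nat.cast_nonneg (α := ℝ) D)
      rw [hΛ, add_mul, add_mul, add_mul, mul_assoc (D : ℝ), mul_assoc (D : ℝ)]
      linarith
    have e6 := mul_le_mul_of_nonneg_left e5 (show 0 ≤ P ^ D * P ^ D by positivity)
    change 1 * 1 * (P ^ D * P ^ D) * Λ * (Δ / β) ≤ _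
    rw [one_mul, one_mul, mul_assoc]
    linarith
  · have e1 : Δ / β * (4 * ((b : ℝ) + 1) ^ 2 * P ^ (m.natAbs + 1)) =
        Δ * (4 * P ^ (m.natAbs + 1)) * (((b : ℝ) + 1) / b) := by
      rw [hβ]; field_simp
    have e2 : (1 : ℝ) ≤ ((b : ℝ) + 1) / b := by
      rw [le_div_iff₀ hb0]; linarith
    rw [e1]
    exact one_le_mul_of_one_le_of_one_le d5 e2

end Crest.Agent.R129.A
end

-- ▼ part PVb/R129/A/Apx
section

/-! # Trigonometric approximation of the bumps (task R129/A-Apx). Statements frozen. -/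

set_option autoImplicit false
open scoped BigOperators

namespace Crest.Agent.R129.A

theorem apx_prod_le {ι : Type} (s : Finset ι) (a : ι → ℂ) (B : ℝ) (ha : ∀ i, ‖a i‖ ≤ B) :
    ‖∏ i ∈ s, a i‖ ≤ B ^ s.card := by
  rw [norm_prod, ← Finset.prod_const]
  exact Finset.prod_le_prod (fun i _ => norm_nonneg _) (fun i _ => ha i)

theorem apx_tele {ι : Type} [DecidableEq ι] (s : Finset ι) (a b : ι → ℂ) (B e : ℝ) (hB : 1 ≤ B)
    (he : 0 ≤ e) (ha : ∀ i, ‖a i‖ ≤ B) (hb : ∀ i, ‖b i‖ ≤ B) (hab : ∀ i, ‖a i - b i‖ ≤ e) :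
    ‖∏ i ∈ s, a i - ∏ i ∈ s, b i‖ ≤ s.card * e * B ^ s.card := by
  induction s using Finset.induction_on with
  | empty => simp
  | insert j s hj ih =>
    rw [Finset.prod_insert hj, Finset.prod_insert hj, Finset.card_insert_of_notMem hj]
    have e1 : a j * ∏ i ∈ s, a i - b j * ∏ i ∈ s, b i =
        (a j - b j) * ∏ i ∈ s, a i + b j * (∏ i ∈ s, a i - ∏ i ∈ s, b i) := by ring
    have hB0 : 0 ≤ B := by linarith
    have h1 : ‖(a j - b j) * ∏ i ∈ s, a i‖ ≤ e * B ^ s.card := by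
      rw [norm_mul]
      exact mul_le_mul (hab j) (apx_prod_le s a B ha) (norm_nonneg _) he
    have h2 : ‖b j * (∏ i ∈ s, a i - ∏ i ∈ s, b i)‖ ≤ B * (s.card * e * B ^ s.card) := by
      rw [norm_mul]
      exact mul_le_mul (hb j) ih (norm_nonneg _) hB0
    have h3 : e * B ^ s.card ≤ e * B ^ s.card * B :=
      le_mul_of_one_le_right (by positivity) hB
    rw [e1]
    refine (norm_add_le _ _).trans ?_
    push_cast
    rw [pow_succ]
    linarith

theorem apx_tev1_le (P : ℤ →₀ ℂ) (x : ℝ) : ‖tev1 P x‖ ≤ l1 P := by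
  unfold tev1 l1 Finsupp.sum
  refine (norm_sum_le _ _).trans (le_of_eq (Finset.sum_congr rfl fun k _ => ?_))
  have : (2 * Real.pi * Complex.I * (((k : ℝ) * x : ℝ) : ℂ)) =
      ((2 * Real.pi * ((k : ℝ) * x) : ℝ) : ℂ) * Complex.I := by
    push_cast
    ring
  rw [norm_mul, this, Complex.norm_exp_ofReal_mul_I, mul_one]

/-- Tensor product: `Q = ∑_{k ∈ piFinset supports} single k (∏ i, P i (k i))`; `tev Q x = ∏ i, tev1 (P i) (x i)`
and `l1 Q ≤ ∏ l1 (P i)` by `Finset.prod_univ_sum`; `‖tev1 (P i) y‖ ≤ l1 (P i) ≤ B`; telescoping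
`‖∏ a i - ∏ b i‖ ≤ card * e * B ^ card` for factors bounded by `B ≥ 1` (induction on a Finset). -/
theorem exists_prod {ι : Type} [Fintype ι] [DecidableEq ι] (f : ι → ℝ → ℝ) (P : ι → ℤ →₀ ℂ)
    (B e Ξ : ℝ) (hB : 1 ≤ B) (he : 0 ≤ e) (hf : ∀ i y, |f i y| ≤ B) (hP : ∀ i, l1 (P i) ≤ B)
    (herr : ∀ i x, ‖tev1 (P i) x - (f i (x - round x) : ℝ)‖ ≤ e)
    (hΞ : ∀ i, ∀ k ∈ (P i).support, |(k : ℝ)| ≤ Ξ) :
    ∃ Q : (ι → ℤ) →₀ ℂ, l1 Q ≤ B ^ Fintype.card ι ∧
      (∀ x, ‖tev Q x - ((∏ i, f i (rep x i) : ℝ) : ℂ)‖ ≤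
        Fintype.card ι * e * B ^ Fintype.card ι) ∧
      ∀ k ∈ Q.support, ∀ i, |(k i : ℝ)| ≤ Ξ := by
  let T : Finset (ι → ℤ) := Fintype.piFinset fun i => (P i).support
  have hT : ∀ k : ι → ℤ, ∏ i, P i (k i) ≠ 0 → k ∈ T := fun k hk =>
    Fintype.mem_piFinset.2 fun i => Finsupp.mem_support_iff.2
      (Finset.prod_ne_zero_iff.1 hk i (Finset.mem_univ i))
  refine ⟨Finsupp.onFinset T (fun k => ∏ i, P i (k i)) hT, ?_, fun x => ?_, fun k hk i => ?_⟩
  · rw [l1_eq_sum _ T Finsupp.support_onFinset_subset]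
    simp only [Finsupp.onFinset_apply, norm_prod]
    rw [← Finset.prod_univ_sum (fun i => (P i).support) (fun i k => ‖P i k‖), ← Finset.card_univ,
      ← Finset.prod_const]
    exact Finset.prod_le_prod (fun i _ => l1_nonneg (P i)) (fun i _ => hP i)
  · have e1 : tev (Finsupp.onFinset T (fun k => ∏ i, P i (k i)) hT) x = ∏ i, tev1 (P i) (x i) := by
      unfold tev tev1
      rw [Finsupp.onFinset_sum hT (by simp)]
      simp only [Finsupp.sum]
      rw [Finset.prod_univ_sum]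
      refine Finset.sum_congr rfl fun k _ => ?_
      rw [Finset.prod_mul_distrib, ← Complex.exp_sum, ← Finset.mul_sum, ch]
      push_cast
      rfl
    rw [e1, Complex.ofReal_prod, ← Finset.card_univ]
    refine apx_tele _ _ _ B e hB he (fun i => (apx_tev1_le _ _).trans (hP i)) (fun i => ?_)
      (fun i => herr i (x i))
    rw [Complex.norm_real, Real.norm_eq_abs]
    exact hf i _
  · exact hΞ i _ (Fintype.mem_piFinset.1 (Finsupp.support_onFinset_subset hk) i)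

theorem apx_lam {p : Par} (h : p.Ok) (m : ℤ) (sa : Bool × Idx p.n) :
    p.tau m sa.1 ≤ p.lam m sa ∧ p.lam m sa ≤ 1 / 4 := by
  have hv : (1 : ℝ) ≤ p.vr m sa.1 := by exact_mod_cast h.v0_pos.trans (h.v0_le_vr m sa.1)
  have ht := h.tau_pos m sa.1
  refine ⟨le_mul_of_one_le_right ht.le (one_le_pow₀ hv), ?_⟩
  have h1 : p.lam m sa ≤ p.tau m sa.1 * (p.vr m sa.1 : ℝ) ^ p.n :=
    mul_le_mul_of_nonneg_left (pow_le_pow_right₀ hv sa.2.dist_lt.le) ht.le
  refine h1.trans ((h.tau_vr m sa.1).trans ?_)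
  have hb : (0 : ℝ) < p.b := by
    have := h.four_le_b
    positivity
  have hP : 0 < p.P := by
    have := h.two_le_P
    exact_mod_cast (by linarith : (0 : ℝ) < p.P)
  have hK : 0 < p.K := by
    unfold Par.K
    positivity
  have h2 : 4 * p.v0 ^ p.n ≤ p.b := by
    refine le_trans ?_ h.b_ge
    refine Nat.mul_le_mul_right _ ?_
    rw [mul_assoc, mul_assoc]
    exact Nat.le_mul_of_pos_right _ (by positivity)
  have h3 : (4 : ℝ) * (p.v0 : ℝ) ^ p.n ≤ p.b := by exact_mod_cast h2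
  rw [div_le_div_iff₀ hb (by norm_num)]
  linarith

theorem apx_fac {p : Par} (h : p.Ok) (A ε : ℝ) (hA : 3 ≤ A) (hε : 0 < ε) (hε1 : ε ≤ 1) (m : ℤ)
    (hth : ∃ (L : NNReal) (a ℓ : ℝ), LipschitzWith L (p.Th m) ∧
      (∀ y, p.Th m y ≠ 0 → a < y ∧ y < a + ℓ) ∧ -(1 / 2) ≤ a ∧ a + ℓ ≤ 1 / 2 ∧
      0 < ℓ ∧ (L : ℝ) * ℓ ≤ A ∧
      1 ≤ ℓ * (4 * ((p.b : ℝ) + 1) ^ 2 * ((p.R : ℝ) ^ p.n) ^ (m.natAbs + 1))) (i : I p.n) :
    (∀ y, |p.fac m i y| ≤ A) ∧ ∃ P : ℤ →₀ ℂ, l1 P ≤ 10 * A ∧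
      (∀ x : ℝ, ‖tev1 P x - (p.fac m i (x - round x) : ℝ)‖ ≤ ε * A) ∧
      ∀ k ∈ P.support, |(k : ℝ)| ≤
        10 / ε ^ 2 * (4 * ((p.b : ℝ) + 1) ^ 2 * ((p.R : ℝ) ^ p.n) ^ (m.natAbs + 1)) := by
  have key : ∃ (L : NNReal) (a ℓ : ℝ), LipschitzWith L (p.fac m i) ∧
      (∀ y, p.fac m i y ≠ 0 → a < y ∧ y < a + ℓ) ∧ -(1 / 2) ≤ a ∧ a + ℓ ≤ 1 / 2 ∧
      0 < ℓ ∧ (L : ℝ) * ℓ ≤ A ∧
      1 ≤ ℓ * (4 * ((p.b : ℝ) + 1) ^ 2 * ((p.R : ℝ) ^ p.n) ^ (m.natAbs + 1)) := by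
    rcases i with _ | sa
    · exact hth
    · obtain ⟨h1, h2⟩ := apx_lam h m sa
      have ht := h.tau_pos m sa.1
      have hl : 0 < p.lam m sa := ht.trans_le h1
      obtain ⟨L, hL⟩ : ∃ L : NNReal, (L : ℝ) = 3 / 2 * (p.lam m sa)⁻¹ :=
        ⟨⟨3 / 2 * (p.lam m sa)⁻¹, by positivity⟩, rfl⟩
      refine ⟨L, -p.lam m sa, 2 * p.lam m sa, ?_, ?_,
        by linarith, by linarith, by positivity, ?_, ?_⟩
      · refine LipschitzWith.of_dist_le_mul fun x y => ?_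
        refine (psi_lip.dist_le_mul (x / p.lam m sa) (y / p.lam m sa)).trans (le_of_eq ?_)
        rw [Real.dist_eq, Real.dist_eq, ← sub_div, abs_div, abs_of_pos hl, hL]
        push_cast
        ring
      · intro y hy
        have h3 : |y / p.lam m sa| < 1 := psi_ne hy
        rw [abs_div, abs_of_pos hl, div_lt_one hl, abs_lt] at h3
        constructor <;> linarith [h3.1, h3.2]
      · refine le_trans (le_of_eq ?_) hA
        rw [hL]
        field_simp
      · have h3 := h.tau_lower m sa.1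
        have hP : (p.P : ℝ) = (p.R : ℝ) ^ p.n := by simp [Par.P]
        have hP2 := h.two_le_P
        rw [← hP]
        have hb : (1 : ℝ) ≤ (p.b : ℝ) + 1 := by
          have : (0 : ℝ) ≤ p.b := by positivity
          linarith
        have h4 : ((p.b : ℝ) + 1) * (p.P : ℝ) ^ m.natAbs ≤
            4 * ((p.b : ℝ) + 1) ^ 2 * (p.P : ℝ) ^ (m.natAbs + 1) := by
          refine mul_le_mul ?_ (pow_le_pow_right₀ (by linarith) (Nat.le_succ _)) (by positivity)
            (by positivity)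
          nlinarith
        calc (1 : ℝ) ≤ 2 * p.tau m sa.1 * (((p.b : ℝ) + 1) * (p.P : ℝ) ^ m.natAbs) := by linarith
          _ ≤ _ := mul_le_mul (by linarith) h4 (by positivity) (by positivity)
  obtain ⟨L, a, ℓ, k1, k2, k3, k4, k5, k6, k7⟩ := key
  obtain ⟨w1, P, w2, w3, w4⟩ := wiener (p.fac m i) L a ℓ A ε k1 k2 k3 k4 k5 k6 hε hε1
  refine ⟨w1, P, w2, w3, fun k hk => (w4 k hk).trans ?_⟩
  rw [← div_div, div_le_iff₀ k5, mul_assoc, mul_comm _ ℓ]
  exact le_mul_of_one_le_right (by positivity) k7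

/-- `A` from `th_lip`, `B = (10 A)^card`, `ε' = ε / (card A B)` (cut at `1`).  Apply `wiener` to every factor:
`Th m` by `th_lip`; `psi (· / lam)` has support in `(-lam, lam)`, Lipschitz constant `3/(2 lam)`
(`psi_lip`), `lam ≤ tau vr^n ≤ v0^n / b ≤ 1/4` (`tau_vr`, `b_ge`) and `lam ≥ tau` (`tau_lower`).  Then
`exists_prod`; `C = ⌈40 R^n / ε'²⌉₊`. -/
theorem exists_apx (n R : ℕ) : ∃ B : ℝ, 1 ≤ B ∧ ∀ ε : ℝ, 0 < ε → ∃ C : ℕ, ∀ v0 b : ℕ,
    (Par.mk n R v0 b).Ok → ∃ f : ℤ → (I n → ℤ) →₀ ℂ, ∀ m : ℤ,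
      l1 (f m) ≤ B ∧ (∀ x, |(Par.mk n R v0 b).G m x| ≤ B) ∧
      (∀ x, ‖tev (f m) x - (((Par.mk n R v0 b).G m (rep x) : ℝ) : ℂ)‖ ≤ ε) ∧
      ∀ k ∈ (f m).support, ∀ i, |k i| ≤ ((C * (b + 1) ^ 2 * (R ^ n) ^ m.natAbs : ℕ) : ℤ) := by
  obtain ⟨A, hA, hth⟩ := th_lip n R
  set c : ℕ := Fintype.card (I n) with hc
  have hB1 : 1 ≤ 10 * A := by linarith
  have hA0 : 0 < A := by linarith
  refine ⟨(10 * A) ^ c, one_le_pow₀ hB1, fun ε hε => ?_⟩
  set ε' : ℝ := min 1 (ε / (c * A * (10 * A) ^ c + 1)) with hε'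
  have hε0 : 0 < ε' := lt_min one_pos (by positivity)
  refine ⟨⌈40 * (R : ℝ) ^ n / ε' ^ 2⌉₊, fun v0 b h => ?_⟩
  have key : ∀ m : ℤ, ∃ Q : (I n → ℤ) →₀ ℂ,
      l1 Q ≤ (10 * A) ^ c ∧ (∀ x, |(Par.mk n R v0 b).G m x| ≤ (10 * A) ^ c) ∧
      (∀ x, ‖tev Q x - (((Par.mk n R v0 b).G m (rep x) : ℝ) : ℂ)‖ ≤ ε) ∧
      ∀ k ∈ Q.support, ∀ i,
        |k i| ≤ ((⌈40 * (R : ℝ) ^ n / ε' ^ 2⌉₊ * (b + 1) ^ 2 * (R ^ n) ^ m.natAbs : ℕ) : ℤ) := by
    intro m
    have hf := apx_fac h A ε' hA hε0 (min_le_left _ _) m (hth v0 b h m)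
    choose hf1 P hP1 hP2 hP3 using hf
    have hf2 : ∀ i y, |(Par.mk n R v0 b).fac m i y| ≤ 10 * A := fun i y =>
      (hf1 i y).trans (by linarith)
    obtain ⟨Q, hQ1, hQ2, hQ3⟩ := exists_prod (ι := I n) ((Par.mk n R v0 b).fac m) P (10 * A) (ε' * A) _
      hB1 (by positivity) hf2 hP1 hP2 hP3
    refine ⟨Q, hQ1, fun x => ?_, fun x => (hQ2 x).trans ?_, fun k hk i => ?_⟩
    · unfold Par.G
      rw [Finset.abs_prod, hc, ← Finset.card_univ, ← Finset.prod_const]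
      exact Finset.prod_le_prod (fun i _ => abs_nonneg _) (fun i _ => hf2 i _)
    · have h1 : ε' * (c * A * (10 * A) ^ c + 1) ≤ ε := by
        rw [← le_div_iff₀ (by positivity)]
        exact min_le_right _ _
      rw [← hc]
      nlinarith
    · have h1 := hQ3 k hk i
      have h2 : 40 * (R : ℝ) ^ n / ε' ^ 2 ≤ ⌈40 * (R : ℝ) ^ n / ε' ^ 2⌉₊ := Nat.le_ceil _
      have h3 : |(k i : ℝ)| ≤
          (⌈40 * (R : ℝ) ^ n / ε' ^ 2⌉₊ : ℝ) * (((b : ℝ) + 1) ^ 2 * ((R : ℝ) ^ n) ^ m.natAbs) := by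
        refine h1.trans (le_trans (le_of_eq ?_) (mul_le_mul_of_nonneg_right h2 (by positivity)))
        rw [pow_succ ((R : ℝ) ^ n)]
        ring
      rw [← mul_assoc] at h3
      exact_mod_cast h3
  choose f hf using key
  exact ⟨f, hf⟩

end Crest.Agent.R129.A
end

-- ▼ part PVb/R129/A/Grow

/-! # Polynomial growth (task R129/A-Grow). Statements frozen. -/

set_option autoImplicit false
open scoped BigOperators Matrix

namespace Crest.Agent.R129.A

/-- entries grow at most like `v ^ dist` -/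
def GrowGau {n : ℕ} (g : UT n ℤ) (v : ℝ) : Prop := ∀ a, |(g.co a : ℝ)| ≤ v ^ a.dist

theorem GrowGau.mono {n : ℕ} {g : UT n ℤ} {v w : ℝ} (h : GrowGau g v) (hv : 0 ≤ v) (hw : v ≤ w) :
    GrowGau g w := fun a => (h a).trans (pow_le_pow_left₀ hv hw _)

theorem GrowGau.mat {n : ℕ} {g : UT n ℤ} {v : ℝ} (h : GrowGau g v) (i j : Fin n) :
    |(g.mat i j : ℝ)| ≤ if (i : ℕ) ≤ j then v ^ ((j : ℕ) - i) else 0 := by
  rcases lt_trichotomy i j with hij | rfl | hij
  · rw [if_pos (Fin.le_def.1 hij.le), UT.mat, Matrix.add_apply, Matrix.one_apply_ne hij.ne, zero_add,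
      su_apply_lt _ hij]
    exact h ⟨(i, j), hij⟩
  · rw [UT.mat, Matrix.add_apply, isSU_su _ i i le_rfl]
    simp
  · rw [if_neg (not_le.2 (Fin.lt_def.1 hij)), UT.mat, Matrix.add_apply, Matrix.one_apply_ne hij.ne',
      isSU_su _ i j hij.le]
    simp

theorem GrowGau.mul {n : ℕ} {g h : UT n ℤ} {v w : ℝ} (hg : GrowGau g v) (hh : GrowGau h w)
    (hv : 0 ≤ v) (hw : 0 ≤ w) : GrowGau (g * h) (v + w) := by
  rintro ⟨⟨i, j⟩, hij⟩
  have hij' : (i : ℕ) < j := hij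
  have hj := j.2
  change |((g.mat * h.mat) i j : ℝ)| ≤ (v + w) ^ ((j : ℕ) - i)
  rw [Matrix.mul_apply]
  push_cast
  have h1 : ∀ l : Fin n, |(g.mat i l : ℝ) * (h.mat l j : ℝ)| ≤
      (fun l : ℕ => if (i : ℕ) ≤ l ∧ l ≤ j then v ^ (l - i) * w ^ ((j : ℕ) - l) else 0) l := fun l => by
    rw [abs_mul]
    refine (mul_le_mul (hg.mat i l) (hh.mat l j) (abs_nonneg _) (by positivity)).trans (le_of_eq ?_)
    by_cases a1 : (i : ℕ) ≤ l <;> by_cases a2 : (l : ℕ) ≤ j <;> simp [a1, a2]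
  refine (Finset.abs_sum_le_sum_abs _ _).trans ((Finset.sum_le_sum fun l _ => h1 l).trans ?_)
  have h2 : (Finset.range n).filter (fun l => (i : ℕ) ≤ l ∧ l ≤ j) = Finset.Ico (i : ℕ) (j + 1) := by
    ext l
    simp only [Finset.mem_filter, Finset.mem_range, Finset.mem_Ico]
    omega
  rw [Fin.sum_univ_eq_sum_range
      (fun l : ℕ => if (i : ℕ) ≤ l ∧ l ≤ j then v ^ (l - i) * w ^ ((j : ℕ) - l) else 0) n,
    ← Finset.sum_filter, h2, Finset.sum_Ico_eq_sum_range, add_pow,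
    show (j : ℕ) + 1 - i = j - i + 1 by omega]
  refine Finset.sum_le_sum fun m hm => ?_
  have hm' : m ≤ (j : ℕ) - i := Nat.lt_succ_iff.1 (Finset.mem_range.1 hm)
  rw [Nat.add_sub_cancel_left, show (j : ℕ) - (i + m) = j - i - m by omega]
  exact le_mul_of_one_le_right (by positivity) (by exact_mod_cast Nat.choose_pos hm')

theorem grow_letter {n : ℕ} {g : UT n ℤ} {Ξ : ℕ} (hΞ : 1 ≤ Ξ) (h : ∀ a, |g.co a| ≤ (Ξ : ℤ)) :
    GrowGau g ((n + 2) * Ξ) ∧ GrowGau g⁻¹ ((n + 2) * Ξ) := by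
  have hΞ' : (1 : ℝ) ≤ Ξ := by exact_mod_cast hΞ
  have h1 : GrowGau g Ξ := fun a =>
    (show |(g.co a : ℝ)| ≤ Ξ by exact_mod_cast h a).trans (le_self_pow₀ hΞ' a.dist_pos.ne')
  refine ⟨h1.mono (by positivity) ?_, inv_bound g Ξ (by positivity) h1⟩
  have : (0 : ℝ) ≤ n := Nat.cast_nonneg n
  nlinarith

theorem grow_rho {n b : ℕ} {ρ : NN n →* Matrix (I n) (I n) ℤ} (hρ : ∀ g x, act ρ g x = lin b g x)
    {g : NN n} {v : ℝ} (hv : 1 ≤ v) (hg : ∀ s, GrowGau (g s) v) (i j : I n) :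
    |(ρ g i j : ℝ)| ≤ (n + 2) * (b + 1) * v ^ n := by
  have h1 : (ρ g i j : ℝ) = lin b g (Pi.single j (1 : ℝ)) i := by
    rw [← hρ, act, Matrix.mulVec_single_one]
    rfl
  have h2 : ∀ i' : I n, |(Pi.single j (1 : ℝ) : I n → ℝ) i'| ≤ 1 := fun i' => by
    by_cases h : i' = j
    · subst h
      simp
    · simp [Pi.single_eq_of_ne h]
  have hn : (0 : ℝ) ≤ n := Nat.cast_nonneg n
  have hb : (1 : ℝ) ≤ b + 1 := by linarith [(Nat.cast_nonneg b : (0 : ℝ) ≤ b)]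
  rw [h1]
  rcases i with _ | ⟨s, a⟩
  · refine (h2 none).trans ?_
    exact one_le_mul_of_one_le_of_one_le (one_le_mul_of_one_le_of_one_le (by linarith) hb)
      (one_le_pow₀ hv)
  · refine (affU_bound (g s) _ (b + 1) v (by positivity) (by positivity) _ (hg s) (fun a' => ?_) ?_
      a).trans ?_
    · exact (h2 _).trans (one_le_mul_of_one_le_of_one_le hb (one_le_pow₀ hv))
    · rw [abs_mul]
      refine (mul_le_of_le_one_right (abs_nonneg _) (h2 none)).trans ?_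
      cases s
      · simp [bet]
      · simp only [bet, if_true]
        push_cast
        exact (abs_of_nonneg (by positivity)).le
    · exact mul_le_mul_of_nonneg_left (pow_le_pow_right₀ hv a.dist_lt.le) (by positivity)

theorem grow_vecMul {ι : Type} [Fintype ι] (u : ι → ℤ) (M : Matrix ι ι ℤ) {B E : ℝ} (hB : 0 ≤ B)
    (hu : ∀ i, |(u i : ℝ)| ≤ B) (hM : ∀ i j, |(M i j : ℝ)| ≤ E) (j : ι) :
    |((u ᵥ* M) j : ℝ)| ≤ Fintype.card ι * B * E := by
  rw [Matrix.vecMul, dotProduct]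
  push_cast
  refine (Finset.abs_sum_le_sum_abs _ _).trans ((Finset.sum_le_sum (g := fun _ => B * E)
    fun i _ => ?_).trans (le_of_eq ?_))
  · rw [abs_mul]
    exact mul_le_mul (hu i) (hM i j) (abs_nonneg _) hB
  · rw [Finset.sum_const, Finset.card_univ, nsmul_eq_mul, mul_assoc]

theorem grow_list {n : ℕ} {ρ : NN n →* Matrix (I n) (I n) ℤ} {v B E : ℝ} {k : ℕ} (hv : 0 ≤ v)
    (hB : 0 ≤ B) (hρ : ∀ g : NN n, (∀ s, GrowGau (g s) (k * v)) → ∀ i j, |(ρ g i j : ℝ)| ≤ E)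
    (l : List (HG ρ)) (hl : l.length ≤ k)
    (hx : ∀ x ∈ l, (∀ s, GrowGau (x.g s) v ∧ GrowGau (x.g s)⁻¹ v) ∧ ∀ i, |(x.k i : ℝ)| ≤ B) :
    (∀ s, GrowGau (l.prod.g s) (l.length * v) ∧ GrowGau (l.prod.g s)⁻¹ (l.length * v)) ∧
      ∀ i, |(l.prod.k i : ℝ)| ≤ l.length * (Fintype.card (I n) * B * E) := by
  induction l using List.reverseRecOn with
  | nil =>
    have h1 : ∀ w : ℝ, 0 ≤ w → GrowGau (1 : UT n ℤ) w := fun w hw a => by
      rw [UT.one_co]
      simpa using pow_nonneg hw _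
    refine ⟨fun s => ⟨h1 _ (by simp), ?_⟩, fun i => by simp⟩
    simpa using h1 0 le_rfl
  | append_singleton l x ih =>
    rw [List.length_append, List.length_singleton] at hl ⊢
    obtain ⟨a1, a2⟩ := ih (by omega) fun y hy => hx y (List.mem_append_left _ hy)
    obtain ⟨b1, b2⟩ := hx x (by simp)
    have h0 : (0 : ℝ) ≤ l.length * v := by positivity
    rw [List.prod_append, List.prod_singleton]
    push_cast
    refine ⟨fun s => ⟨?_, ?_⟩, fun i => ?_⟩
    · rw [add_one_mul]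
      exact (a1 s).1.mul (b1 s).1 h0 hv
    · rw [add_one_mul, add_comm, HG.mul_g, Pi.mul_apply, mul_inv_rev]
      exact (b1 s).2.mul (a1 s).2 hv h0
    · have hk : (l.length : ℝ) ≤ k := by exact_mod_cast (by omega : l.length ≤ k)
      have c1 := grow_vecMul x.k (ρ l.prod.g⁻¹) hB b2
        (hρ _ fun s => (a1 s).2.mono h0 (mul_le_mul_of_nonneg_right hk hv)) i
      rw [HG.mul_k, Pi.add_apply, Int.cast_add, add_one_mul]
      exact (abs_add_le _ _).trans (add_le_add (a2 i) c1)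

theorem grow_le_pow (c : ℕ) {T : ℝ} (hT : 2 ≤ T) : (c : ℝ) ≤ T ^ c :=
  (show (c : ℝ) ≤ 2 ^ c by exact_mod_cast Nat.lt_two_pow_self.le).trans
    (pow_le_pow_left₀ zero_le_two hT c)

/-- Gauge `Gau g v := ∀ a, |g.co a| * (dist a)! ≤ v ^ dist a` is additive: `Gau g v → Gau h w → Gau (g h) (v + w)`
(`UT.mul_co_apply` and the binomial theorem).  If `g` or `g⁻¹` has entries `≤ Ξ` then both have entries
`≤ ((n+2) Ξ)^dist` (`inv_bound`), hence gauge `v₁ = n! (n+2) Ξ`; products of at most `k` such elements and their inverses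
have gauge `k v₁`, so entries `≤ (k v₁)^n`.  Entries of `ρ g`: evaluate `act ρ g (Pi.single j 1) = lin ..` and use
`affU_apply`: `|ρ g i j| ≤ (n+2) (b+1) E` if the entries of `g` are `≤ E`, `1 ≤ E`.  By induction on the list the
`k`-part of the product is at most `k * card (I n) * (n+2) Ξ (k v₁)^n * (bound for the k-part of a letter)`, where for
a letter `x` with `Sz x⁻¹ Ξ` one uses `x.k = -(x⁻¹.k ᵥ* ρ x⁻¹.g)`.  All constants are absorbed because `2 ≤ Ξ k`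
(`c ≤ 2 ^ c ≤ (Ξ k) ^ c`). -/
theorem sz_prod (n : ℕ) : ∃ C : ℕ, ∀ (b : ℕ) (ρ : NN n →* Matrix (I n) (I n) ℤ),
    (∀ g x, act ρ g x = lin b g x) → ∀ Ξ k : ℕ, 2 ≤ Ξ → b + 1 ≤ Ξ → 1 ≤ k →
    ∀ l : List (HG ρ), l.length ≤ k → (∀ x ∈ l, Sz x Ξ ∨ Sz x⁻¹ Ξ) → Sz l.prod ((Ξ * k) ^ C) := by
  refine ⟨2 + 2 * Fintype.card (I n) + 2 * (n + 3 + (n + 3) * n), fun b ρ hρ Ξ k hΞ hb hk l hl hx => ?_⟩
  have hΞ' : (2 : ℝ) ≤ Ξ := by exact_mod_cast hΞ
  have hk' : (1 : ℝ) ≤ k := by exact_mod_cast hk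
  have hb' : (b : ℝ) + 1 ≤ Ξ := by exact_mod_cast hb
  have hl' : (l.length : ℝ) ≤ k := by exact_mod_cast hl
  have hn : (0 : ℝ) ≤ n := Nat.cast_nonneg n
  have hc : (1 : ℝ) ≤ Fintype.card (I n) := by exact_mod_cast Fintype.card_pos
  obtain ⟨T, hT⟩ : ∃ T : ℝ, T = Ξ * k := ⟨_, rfl⟩
  have hΞT : (Ξ : ℝ) ≤ T := by rw [hT]; nlinarith
  have hkT : (k : ℝ) ≤ T := by rw [hT]; nlinarith
  have hT2 : 2 ≤ T := hΞ'.trans hΞT
  have hT1 : 1 ≤ T := by linarith
  have hv0 : (0 : ℝ) ≤ (n + 2) * Ξ := by positivity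
  have hv1 : (1 : ℝ) ≤ (n + 2) * Ξ := by nlinarith
  have hv2 : (n + 2 : ℝ) * Ξ ≤ k * ((n + 2) * Ξ) := le_mul_of_one_le_left hv0 hk'
  have hn2 : (n + 2 : ℝ) ≤ T ^ (n + 2) := by exact_mod_cast grow_le_pow (n + 2) hT2
  have hV : (k : ℝ) * ((n + 2) * Ξ) ≤ T ^ (n + 3) := by
    rw [pow_succ, show (k : ℝ) * ((n + 2) * Ξ) = (n + 2) * (Ξ * k) by ring, ← hT]
    exact mul_le_mul_of_nonneg_right hn2 (by linarith)
  have hE : ∀ g : NN n, (∀ s, GrowGau (g s) (k * ((n + 2) * Ξ))) → ∀ i j,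
      |(ρ g i j : ℝ)| ≤ T ^ (n + 3 + (n + 3) * n) := fun g hg i j => by
    refine (grow_rho hρ (hv1.trans hv2) hg i j).trans ?_
    rw [pow_add, pow_mul, pow_succ T (n + 2)]
    exact mul_le_mul (mul_le_mul hn2 (hb'.trans hΞT) (by positivity) (by positivity))
      (pow_le_pow_left₀ (by positivity) hV n) (by positivity) (by positivity)
  have hE1 : 1 ≤ T ^ (n + 3 + (n + 3) * n) := one_le_pow₀ hT1
  obtain ⟨a1, a2⟩ := grow_list (v := (n + 2) * Ξ)
    (B := Fintype.card (I n) * Ξ * T ^ (n + 3 + (n + 3) * n)) hv0 (by positivity) hE l hl fun x hxl => by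
      rcases hx x hxl with h | h
      · refine ⟨fun s => grow_letter (by omega) (h.2 s), fun i => ?_⟩
        refine (show |(x.k i : ℝ)| ≤ Ξ by exact_mod_cast h.1 i).trans ?_
        exact (le_mul_of_one_le_left (by positivity) hc).trans (le_mul_of_one_le_right (by positivity) hE1)
      · refine ⟨fun s => ?_, fun i => ?_⟩
        · have := grow_letter (by omega) (h.2 s)
          rw [HG.inv_g, Pi.inv_apply, inv_inv] at this
          exact this.symm
        · have e : x.k = -(x⁻¹.k ᵥ* ρ x⁻¹.g) := by rw [← HG.inv_k, inv_inv]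
          rw [e, Pi.neg_apply, Int.cast_neg, abs_neg]
          exact grow_vecMul _ _ (by positivity) (fun i => by exact_mod_cast h.1 i)
            (hE _ fun s => (grow_letter (by omega) (h.2 s)).1.mono hv0 hv2) i
  have hcT := grow_le_pow (Fintype.card (I n)) hT2
  refine ⟨fun i => ?_, fun s a => ?_⟩
  · have : |(l.prod.k i : ℝ)| ≤ T ^ (2 + 2 * Fintype.card (I n) + 2 * (n + 3 + (n + 3) * n)) := by
      refine (a2 i).trans ?_
      calc (l.length : ℝ) * (Fintype.card (I n) *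
            (Fintype.card (I n) * Ξ * T ^ (n + 3 + (n + 3) * n)) * T ^ (n + 3 + (n + 3) * n))
          ≤ T * (T ^ Fintype.card (I n) *
            (T ^ Fintype.card (I n) * T * T ^ (n + 3 + (n + 3) * n)) * T ^ (n + 3 + (n + 3) * n)) := by
            gcongr
            exact hl'.trans hkT
        _ = _ := by ring
    rw [hT] at this
    exact_mod_cast this
  · have : |((l.prod.g s).co a : ℝ)| ≤
        T ^ (2 + 2 * Fintype.card (I n) + 2 * (n + 3 + (n + 3) * n)) := by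
      refine (((a1 s).1.mono (by positivity) ((mul_le_mul_of_nonneg_right hl' hv0).trans hV)) a).trans ?_
      rw [← pow_mul]
      refine pow_le_pow_right₀ hT1 ?_
      have := Nat.mul_le_mul_left (n + 3) a.dist_lt.le
      omega
    rw [hT] at this
    exact_mod_cast this

/-- the image of a product of intervals; `2 Ξ + 1 ≤ Ξ ^ 3` -/
theorem sz_count (n : ℕ) : ∃ C : ℕ, ∀ (ρ : NN n →* Matrix (I n) (I n) ℤ) (Ξ : ℕ), 2 ≤ Ξ →
    ∃ Fk : Finset (HG ρ), (∀ x, Sz x Ξ → x ∈ Fk) ∧ Fk.card ≤ Ξ ^ C := by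
  classical
  refine ⟨3 * (Fintype.card (I n) + Fintype.card (Idx n) * 2), fun ρ Ξ hΞ => ?_⟩
  refine ⟨((Fintype.piFinset fun _ : I n => Finset.Icc (-(Ξ : ℤ)) Ξ) ×ˢ
    (Fintype.piFinset fun _ : Bool => Fintype.piFinset fun _ : Idx n => Finset.Icc (-(Ξ : ℤ)) Ξ)).image
      fun q => (⟨q.1, fun s => ⟨q.2 s⟩⟩ : HG ρ), fun x hx => ?_, Finset.card_image_le.trans ?_⟩
  · refine Finset.mem_image.2 ⟨(x.k, fun s => (x.g s).co), ?_, rfl⟩
    simp only [Finset.mem_product, Fintype.mem_piFinset, Finset.mem_Icc]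
    exact ⟨fun i => abs_le.1 (hx.1 i), fun s a => abs_le.1 (hx.2 s a)⟩
  · have h1 : (Finset.Icc (-(Ξ : ℤ)) Ξ).card = 2 * Ξ + 1 := by
      rw [Int.card_Icc]
      omega
    have h2 : 2 * Ξ + 1 ≤ Ξ ^ 3 := by
      have : 2 * 2 ≤ Ξ * Ξ := Nat.mul_le_mul hΞ hΞ
      have : 2 * 2 * Ξ ≤ Ξ * Ξ * Ξ := Nat.mul_le_mul_right Ξ this
      rw [pow_three']
      omega
    simp only [Finset.card_product, Fintype.card_piFinset, Finset.prod_const, Finset.card_univ, h1,
      Fintype.card_bool]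
    rw [← pow_mul, ← pow_add, pow_mul]
    exact Nat.pow_le_pow_left h2 _

end Crest.Agent.R129.A
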