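import Crest.Agent.PVb.R129.A.Sym
import Crest.Agent.PVb.R129.A.Est

-- ▼ part PVb/R129/A/Br
section

/-! # The bracket calculus (task R129/A-Br). Statements frozen. -/

set_option autoImplicit false
open scoped BigOperators Matrix

namespace Crest.Agent.R129.A
variable {ι N : Type} [Fintype ι] [DecidableEq ι] [Group N] {ρ : N →* Matrix ι ι ℤ}

omit [Fintype ι] [DecidableEq ι] in
/-- `round x = ⌊x + 1/2⌋` (`round_eq`) -/
theorem rep_of_inQ {x : ι → ℝ} (h : InQ x) : rep x = x := by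
  funext i
  unfold rep
  rw [round_eq_zero_iff.2 ⟨(h i).1, (h i).2⟩]
  simp

omit [Fintype ι] [DecidableEq ι] in
theorem rep_add_int (x : ι → ℝ) (k : ι → ℤ) : rep (x + fun i => (k i : ℝ)) = rep x := by
  funext i
  simp only [rep, Pi.add_apply, round_add_intCast]
  push_cast; ring

/-- `x = rep x + integer`, `act_add`, `act_int`, `aff_act`. -/
theorem rep_act (L : Loc ρ) (g : N) (x : ι → ℝ) (h : InQ (L.aff g (rep x))) :
    rep (act ρ g x) = L.aff g (rep x) := by
  obtain ⟨k, hk⟩ := L.aff_act g (rep x)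
  have e : x = rep x + fun i => ((round (x i) : ℤ) : ℝ) := by
    funext i; simp [rep]
  have e2 : act ρ g x =
      L.aff g (rep x) + fun i => (((ρ g *ᵥ fun j => round (x j)) - k) i : ℝ) := by
    conv_lhs => rw [e, act_add, act_int]
    rw [hk]
    funext i
    simp only [Pi.add_apply, Pi.sub_apply]
    push_cast; ring
  rw [e2, rep_add_int, rep_of_inQ h]


/-- Termwise: if `F (aff h⁻¹ (rep x)) ≠ 0` then `rep (act h⁻¹ x) = aff h⁻¹ (rep x)`; reindex `h ↦ h⁻¹`. -/
theorem tw_br (L : Loc ρ) (F' m F G' m' G : (ι → ℝ) → ℝ) (hF : ∀ y, F y ≠ 0 → InQ y)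
    (hfin : ∀ y, {h | F (L.aff h y) ≠ 0}.Finite) (hm' : ∀ g y, m' (L.aff g y) = m' y) :
    tw ρ (br L F' m F) (br L G' m' G) = br L F' (fun y => m y * m' y * ip L F G' y) G := by
  funext g x
  have hT : ∀ h, F (L.aff h (rep x)) ≠ 0 → h ∈ (hfin (rep x)).toFinset := fun h hh => by
    rw [Set.Finite.mem_toFinset]; exact hh
  have e1 : ip L F G' (rep x) =
      ∑ h ∈ (hfin (rep x)).toFinset, F (L.aff h (rep x)) * G' (L.aff h (rep x)) := by
    unfold ip
    exact finsum_eq_sum_of_support_subset _ fun h hh => hT h (left_ne_zero_of_mul hh)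
  unfold tw
  rw [← finsum_comp_equiv (Equiv.inv N)]
  simp only [Equiv.inv_apply, inv_inv]
  rw [finsum_eq_sum_of_support_subset (s := (hfin (rep x)).toFinset) _ (fun h hh => by
    refine hT h fun e => hh ?_
    simp only [br, inv_inv, e, mul_zero, Complex.ofReal_zero, zero_mul])]
  simp only [br, inv_inv]
  rw [e1]
  simp only [Finset.mul_sum, Finset.sum_mul, Complex.ofReal_sum]
  refine Finset.sum_congr rfl fun h hh => ?_
  rw [Set.Finite.mem_toFinset] at hh
  rw [rep_act L h x (hF _ hh), hm', ← L.aff_mul, mul_inv_rev, inv_mul_cancel_right]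
  push_cast; ring

/-- With `z = rep (act g⁻¹ x)`: if `F (aff g z) ≠ 0` then `aff g z = rep x` (apply `rep_act` to
`act g⁻¹ x`); if `F' (aff g⁻¹ (rep x)) ≠ 0` then `z = aff g⁻¹ (rep x)`.  In both cases the two sides agree,
otherwise both vanish. -/
theorem st_br (L : Loc ρ) (F' m F : (ι → ℝ) → ℝ) (hF' : ∀ y, F' y ≠ 0 → InQ y)
    (hF : ∀ y, F y ≠ 0 → InQ y) (hm : ∀ g y, m (L.aff g y) = m y) :
    st ρ (br L F' m F) = br L F m F' := by
  funext g x
  simp only [st, br, inv_inv, Complex.conj_ofReal]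
  congr 1
  have key : rep x = L.aff g (rep (act ρ g⁻¹ x)) →
      F' (rep (act ρ g⁻¹ x)) * m (rep (act ρ g⁻¹ x)) * F (L.aff g (rep (act ρ g⁻¹ x))) =
        F (rep x) * m (rep x) * F' (L.aff g⁻¹ (rep x)) := fun e => by
    rw [e, hm, ← L.aff_mul, inv_mul_cancel, L.aff_one]; ring
  by_cases h1 : F (L.aff g (rep (act ρ g⁻¹ x))) = 0
  · by_cases h2 : F' (L.aff g⁻¹ (rep x)) = 0
    · rw [h1, h2, mul_zero, mul_zero]
    · refine key ?_
      rw [rep_act L g⁻¹ x (hF' _ h2), ← L.aff_mul, mul_inv_cancel, L.aff_one]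
  · refine key ?_
    rw [← rep_act L g _ (hF _ h1), ← act_mul, mul_inv_cancel, act_one]

/-- the fibre pairing of a bracket at a point of the cube -/
theorem fibre_br (L : Loc ρ) (F' F : (ι → ℝ) → ℝ) (hF' : ∀ y, F' y ≠ 0 → InQ y) {x₀ : ι → ℝ}
    (hx : InQ x₀) (g h : N) :
    (starRingEnd ℂ) ((F' (L.aff g x₀) : ℝ) : ℂ) * br L F' (fun _ => 1) F (g * h⁻¹) (act ρ g x₀) *
        ((F (L.aff h x₀) : ℝ) : ℂ) =
      ((F' (L.aff g x₀) ^ 2 * F (L.aff h x₀) ^ 2 : ℝ) : ℂ) := by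
  by_cases h1 : F' (L.aff g x₀) = 0
  · simp [h1]
  · have e : rep (act ρ g x₀) = L.aff g x₀ := by
      have := rep_act L g x₀ (by rw [rep_of_inQ hx]; exact hF' _ h1)
      rwa [rep_of_inQ hx] at this
    simp only [br, Complex.conj_ofReal]
    rw [e, ← L.aff_mul, mul_inv_rev, inv_inv, inv_mul_cancel_right]
    push_cast; ring

end Crest.Agent.R129.A
end

-- ▼ part PVb/R129/A/Link
section

/-! # The link elements approximate the brackets (task R129/A-Link). Statements frozen. -/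

set_option autoImplicit false
open scoped BigOperators Matrix

namespace Crest.Agent.R129.A

/-- the constant of `card_amp` -/
noncomputable def Par.CS (p : Par) : ℝ :=
  (3 * ((p.K : ℝ) * p.R) ^ p.n) ^ (2 * Fintype.card (Idx p.n))

variable {p : Par} {ρ : NN p.n →* Matrix (I p.n) (I p.n) ℤ} {L : Loc ρ}

theorem aff_none (b : ℕ) {n : ℕ} (g : NN n) (x : I n → ℝ) : aff b g x none = x none := rfl

theorem Par.CS_nonneg (p : Par) : 0 ≤ p.CS := by
  unfold Par.CS
  positivity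

theorem adj_of_ne (h : p.Ok) (hc : IsConc p.b ρ L) {j i : ℤ} (hj : Even j) (hi : Odd i)
    {g : NN p.n} {y : I p.n → ℝ} (h1 : p.F j y ≠ 0) (h2 : p.F i (L.aff g y) ≠ 0) :
    i = j + 1 ∨ i = j - 1 := by
  have a := Par.F_chi h1
  have b := Par.F_chi h2
  rw [hc.2, aff_none] at b
  have := chi_far h.two_le_P a b
  obtain ⟨a, rfl⟩ := hj
  obtain ⟨b, rfl⟩ := hi
  rw [abs_le] at this
  omega

theorem mem_S_of_ne (h : p.Ok) (hc : IsConc p.b ρ L) {l j i : ℤ} (hj : j = l ∨ j = l + 1)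
    (hi : i = l ∨ i = l + 1) {g : NN p.n} {y : I p.n → ℝ} (h1 : p.F j y ≠ 0)
    (h2 : p.F i (L.aff g⁻¹ y) ≠ 0) : g ∈ p.S l := by
  refine h.adequate hj hi h2 ?_
  rw [← hc.2, ← L.aff_mul, mul_inv_cancel, L.aff_one]
  exact h1

theorem br_eq_zero {j i : ℤ} (m : (I p.n → ℝ) → ℝ) (g : NN p.n) (x : I p.n → ℝ)
    (H : p.F j (rep x) ≠ 0 → p.F i (L.aff g⁻¹ (rep x)) ≠ 0 → False) :
    br L (p.F j) m (p.F i) g x = 0 := by
  unfold br
  by_cases h1 : p.F j (rep x) = 0
  · simp [h1]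
  · by_cases h2 : p.F i (L.aff g⁻¹ (rep x)) = 0
    · simp [h2]
    · exact (H h1 h2).elim

theorem row_cases (l : ℤ) : row l = l ∨ row l = l + 1 := by
  unfold row
  split_ifs <;> simp

theorem col_cases (l : ℤ) : col l = l ∨ col l = l + 1 := by
  unfold col
  split_ifs <;> simp

theorem row_min {j i : ℤ} (hj : Even j) (hadj : i = j + 1 ∨ i = j - 1) : row (min j i) = j := by
  unfold row
  rcases hadj with rfl | rfl
  · rw [min_eq_left (by omega), if_pos hj]
  · rw [min_eq_right (by omega), if_neg (by rw [Int.even_iff] at hj ⊢; omega)]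
    omega

theorem col_min {j i : ℤ} (hj : Even j) (hadj : i = j + 1 ∨ i = j - 1) : col (min j i) = i := by
  unfold col
  rcases hadj with rfl | rfl
  · rw [min_eq_left (by omega), if_pos hj]
  · rw [min_eq_right (by omega), if_neg (by rw [Int.even_iff] at hj ⊢; omega)]

open Classical in
theorem ev_vL (f : ℤ → (I p.n → ℤ) →₀ ℂ) (l : ℤ) (g : NN p.n) (x : I p.n → ℝ) :
    ev (vL p ρ f l) g x = if g ∈ p.S l then ((p.amp (row l) * p.amp (col l) : ℝ) : ℂ) *
      (tev (f (row l)) x * tev (f (col l)) (act ρ g⁻¹ x)) else 0 := by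
  unfold vL
  rw [ev_smul, ev_sum]
  simp only [Pi.smul_apply, Finset.sum_apply, smul_eq_mul]
  split_ifs with hg
  · rw [Finset.sum_eq_single g, ev_sand, if_pos rfl]
    · intro g' _ hne
      rw [ev_sand, if_neg (Ne.symm hne)]
    · intro hn
      exact (hn hg).elim
  · rw [Finset.sum_eq_zero, mul_zero]
    intro g' hg'
    rw [ev_sand, if_neg]
    rintro rfl
    exact hg hg'

/-- If `|j - i| ≠ 1` then `|j - i| ≥ 3` (parity) and the bracket vanishes (`F_chi`, `chi_far`; `aff` fixes `θ`).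
Otherwise put `l = min j i`; the bracket vanishes off `S l` (`adequate` applied to the point
`aff g⁻¹ (rep x)`, `aff_mul`), and `bd_of_card`, `card_amp` apply. -/
theorem br_bd (h : p.Ok) (hc : IsConc p.b ρ L) {B : ℝ} (hG : ∀ m x, |p.G m x| ≤ B) {j i : ℤ}
    (hj : Even j) (hi : Odd i) (m : (I p.n → ℝ) → ℝ) (c : ℝ) (hc0 : 0 ≤ c)
    (hm : ∀ y, chi p.P j (p.uu (y none)) ≠ 0 → chi p.P i (p.uu (y none)) ≠ 0 → |m y| ≤ c) :
    Bd (br L (p.F j) m (p.F i)) (p.CS * B ^ 2 * c) := by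
  have hB : 0 ≤ B := (abs_nonneg _).trans (hG 0 0)
  have hCS := p.CS_nonneg
  by_cases hadj : i = j + 1 ∨ i = j - 1
  · have hj' : j = min j i ∨ j = min j i + 1 := by omega
    have hi' : i = min j i ∨ i = min j i + 1 := by omega
    have aj := h.amp_pos j
    have ai := h.amp_pos i
    refine (bd_of_card (p.S (min j i)) (p.amp j * p.amp i * (B ^ 2 * c)) (by positivity)
      (fun g hg x => br_eq_zero m g x fun h1 h2 => hg (mem_S_of_ne h hc hj' hi' h1 h2))
      (fun g _ x => ?_)).mono ?_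
    · by_cases H : p.F j (rep x) ≠ 0 ∧ p.F i (L.aff g⁻¹ (rep x)) ≠ 0
      · have a := Par.F_chi H.1
        have b := Par.F_chi H.2
        rw [hc.2, aff_none] at b
        have hmy := hm _ a b
        unfold br
        rw [Complex.norm_real, Real.norm_eq_abs]
        unfold Par.F
        rw [abs_mul, abs_mul, abs_mul, abs_mul, abs_of_pos aj, abs_of_pos ai]
        calc p.amp j * |p.G j (rep x)| * |m (rep x)| * (p.amp i * |p.G i (L.aff g⁻¹ (rep x))|)
            ≤ p.amp j * B * c * (p.amp i * B) := by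
              gcongr
              · exact hG _ _
              · exact hG _ _
          _ = _ := by ring
      · rw [br_eq_zero m g x fun h1 h2 => H ⟨h1, h2⟩, norm_zero]
        positivity
    · have := h.card_amp hj' hi'
      calc ((p.S (min j i)).card : ℝ) * (p.amp j * p.amp i * (B ^ 2 * c))
          = ((p.S (min j i)).card : ℝ) * (p.amp j * p.amp i) * (B ^ 2 * c) := by ring
        _ ≤ p.CS * (B ^ 2 * c) := mul_le_mul_of_nonneg_right this (by positivity)
        _ = _ := by ring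
  · have e : br L (p.F j) m (p.F i) = 0 := by
      funext g x
      exact br_eq_zero m g x fun h1 h2 => hadj (adj_of_ne h hc hj hi h1 h2)
    rw [e]
    exact bd_zero (by positivity)

/-- Non-adjacent `j, i`: both terms vanish.  Adjacent, `l = min j i`, `row l = j`, `col l = i`: by `ev_smul`,
`ev_sum`, `ev_sand` the symbol at `g ∈ S l` is `amp j amp i tev (f j) x * tev (f i) (act g⁻¹ x)` and `0` off `S l`;
the bracket at `g ∈ S l` is `amp j amp i G j (rep x) G i (rep (act g⁻¹ x))` (`contain`, `rep_act`; trivial if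
`F j (rep x) = 0`).  The difference is at most `amp j amp i 2 ε B` (`norm_tev_le`). -/
theorem link_bd (h : p.Ok) (hc : IsConc p.b ρ L) {B ε : ℝ} (hε : 0 ≤ ε)
    {f : ℤ → (I p.n → ℤ) →₀ ℂ} (hl : ∀ m, l1 (f m) ≤ B) (hG : ∀ m x, |p.G m x| ≤ B)
    (herr : ∀ m x, ‖tev (f m) x - ((p.G m (rep x) : ℝ) : ℂ)‖ ≤ ε) {j i : ℤ}
    (hj : Even j) (hi : Odd i) :
    Bd (ev (vM (vL p ρ f) j i) - br L (p.F j) (fun _ => 1) (p.F i)) (p.CS * (2 * ε * B)) := by
  have hB : 0 ≤ B := (abs_nonneg _).trans (hG 0 0)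
  have hCS := p.CS_nonneg
  by_cases hadj : i = j + 1 ∨ i = j - 1
  · have hj' : j = min j i ∨ j = min j i + 1 := by omega
    have hi' : i = min j i ∨ i = min j i + 1 := by omega
    have aj := h.amp_pos j
    have ai := h.amp_pos i
    have ev' : vM (vL p ρ f) j i = vL p ρ f (min j i) := by
      unfold vM
      rw [if_pos ⟨hj, hadj⟩]
    rw [ev']
    refine (bd_of_card (p.S (min j i)) (p.amp j * p.amp i * (2 * ε * B)) (by positivity)
      (fun g hg x => ?_) (fun g hg x => ?_)).mono ?_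
    · rw [Pi.sub_apply, Pi.sub_apply, ev_vL, if_neg hg,
        br_eq_zero _ g x fun h1 h2 => hg (mem_S_of_ne h hc hj' hi' h1 h2), sub_zero]
    · rw [Pi.sub_apply, Pi.sub_apply, ev_vL, if_pos hg, row_min hj hadj, col_min hj hadj]
      have e : br L (p.F j) (fun _ => 1) (p.F i) g x = ((p.amp j * p.amp i : ℝ) : ℂ) *
          (((p.G j (rep x) : ℝ) : ℂ) * ((p.G i (rep (act ρ g⁻¹ x)) : ℝ) : ℂ)) := by
        by_cases h1 : p.F j (rep x) = 0
        · have h0 : p.G j (rep x) = 0 := by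
            unfold Par.F at h1
            exact (mul_eq_zero.1 h1).resolve_left aj.ne'
          rw [br_eq_zero _ g x fun h1' _ => h1' h1, h0]
          simp
        · have hq := h.contain hj' hg h1
          rw [← hc.2] at hq
          rw [rep_act L g⁻¹ x hq]
          unfold br Par.F
          push_cast
          ring
      rw [e, ← mul_sub, norm_mul, Complex.norm_real, Real.norm_eq_abs, abs_of_pos (mul_pos aj ai)]
      refine mul_le_mul_of_nonneg_left ?_ (mul_pos aj ai).le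
      have e1 := herr j x
      have e2 := herr i (act ρ g⁻¹ x)
      have e3 : ‖tev (f i) (act ρ g⁻¹ x)‖ ≤ B := (norm_tev_le _ _).trans (hl i)
      have e4 : ‖((p.G j (rep x) : ℝ) : ℂ)‖ ≤ B := by
        rw [Complex.norm_real, Real.norm_eq_abs]
        exact hG _ _
      calc _ = ‖(tev (f j) x - ((p.G j (rep x) : ℝ) : ℂ)) * tev (f i) (act ρ g⁻¹ x) +
            ((p.G j (rep x) : ℝ) : ℂ) *
              (tev (f i) (act ρ g⁻¹ x) - ((p.G i (rep (act ρ g⁻¹ x)) : ℝ) : ℂ))‖ := by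
            congr 1
            ring
        _ ≤ ε * B + B * ε := by
            refine (norm_add_le _ _).trans (add_le_add ?_ ?_)
            · rw [norm_mul]
              exact mul_le_mul e1 e3 (norm_nonneg _) hε
            · rw [norm_mul]
              exact mul_le_mul e4 e2 (norm_nonneg _) hB
        _ = _ := by ring
    · have := h.card_amp hj' hi'
      calc ((p.S (min j i)).card : ℝ) * (p.amp j * p.amp i * (2 * ε * B))
          = ((p.S (min j i)).card : ℝ) * (p.amp j * p.amp i) * (2 * ε * B) := by ring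
        _ ≤ p.CS * (2 * ε * B) := mul_le_mul_of_nonneg_right this (by positivity)
  · have e : br L (p.F j) (fun _ => 1) (p.F i) = 0 := by
      funext g x
      exact br_eq_zero _ g x fun h1 h2 => hadj (adj_of_ne h hc hj hi h1 h2)
    have ev' : vM (vL p ρ f) j i = 0 := by
      unfold vM
      rw [if_neg fun H => hadj H.2]
    rw [e, ev', ev_zero, sub_zero]
    exact bd_zero (by positivity)

/-- `l1_sand`, `card_amp` -/
theorem card_l1_sand (h : p.Ok) {B : ℝ} {f : ℤ → (I p.n → ℤ) →₀ ℂ} (hl : ∀ m, l1 (f m) ≤ B)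
    (l : ℤ) (g : NN p.n) :
    ((p.S l).card : ℝ) * (p.amp (row l) * p.amp (col l)) *
      l1 (sand ρ (f (row l)) g (f (col l))).coeff ≤ p.CS * B ^ 2 := by
  have hB : 0 ≤ B := (l1_nonneg _).trans (hl 0)
  refine mul_le_mul (h.card_amp (row_cases l) (col_cases l)) ?_ (l1_nonneg _) p.CS_nonneg
  refine (l1_sand _ _ _).trans ?_
  rw [sq]
  exact mul_le_mul (hl _) (hl _) (l1_nonneg _) hB

theorem l1_vL (h : p.Ok) {B : ℝ} {f : ℤ → (I p.n → ℤ) →₀ ℂ} (hl : ∀ m, l1 (f m) ≤ B) (l : ℤ) :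
    l1 (vL p ρ f l).coeff ≤ p.CS * B ^ 2 := by
  have hB : 0 ≤ B := (l1_nonneg _).trans (hl 0)
  have ha : 0 < p.amp (row l) * p.amp (col l) := mul_pos (h.amp_pos _) (h.amp_pos _)
  unfold vL
  rw [MonoidAlgebra.coeff_smul, l1_smul, MonoidAlgebra.coeff_sum, Complex.norm_real,
    Real.norm_eq_abs, abs_of_pos ha]
  have h1 : ∀ g, l1 (sand ρ (f (row l)) g (f (col l))).coeff ≤ B ^ 2 := fun g => by
    refine (l1_sand _ _ _).trans ?_
    rw [sq]
    exact mul_le_mul (hl _) (hl _) (l1_nonneg _) hB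
  have h2 := (l1_sum_le (p.S l) fun g => (sand ρ (f (row l)) g (f (col l))).coeff).trans
    (Finset.sum_le_sum fun g _ => h1 g)
  rw [Finset.sum_const, nsmul_eq_mul] at h2
  have h3 := h.card_amp (row_cases l) (col_cases l)
  calc _ ≤ p.amp (row l) * p.amp (col l) * (((p.S l).card : ℝ) * B ^ 2) :=
        mul_le_mul_of_nonneg_left h2 ha.le
    _ = ((p.S l).card : ℝ) * (p.amp (row l) * p.amp (col l)) * B ^ 2 := by ring
    _ ≤ p.CS * B ^ 2 := mul_le_mul_of_nonneg_right h3 (by positivity)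

end Crest.Agent.R129.A
end

-- ▼ part PVb/R129/A/Ip
section

/-! # Orbit sums of the frame functions (task R129/A-Ip). Statements frozen. -/

set_option autoImplicit false
open scoped BigOperators Matrix

namespace Crest.Agent.R129.A

/-- if `F m (aff h₀ y) ≠ 0` then every `h` in the set has `h h₀⁻¹ ∈ S m` (`adequate` with `l = j = i = m`) -/
theorem fin_supp {p : Par} (h : p.Ok) {ρ : NN p.n →* Matrix (I p.n) (I p.n) ℤ} {L : Loc ρ}
    (hc : IsConc p.b ρ L) (m : ℤ) (y : I p.n → ℝ) : {g | p.F m (L.aff g y) ≠ 0}.Finite := by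
  rcases Set.eq_empty_or_nonempty {g | p.F m (L.aff g y) ≠ 0} with h0 | ⟨g0, hg0⟩
  · rw [h0]
    exact Set.finite_empty
  · refine ((p.S m).finite_toSet.image fun g => g * g0).subset fun g hg => ?_
    refine ⟨g * g0⁻¹, ?_, inv_mul_cancel_right g g0⟩
    refine h.adequate (l := m) (j := m) (i := m) (Or.inl rfl) (Or.inl rfl) (y := L.aff g0 y) hg0 ?_
    rw [← hc.2, ← L.aff_mul, inv_mul_cancel_right]
    exact hg

/-- `aff` does not move `θ` (`F_chi`) -/
theorem ip_eq_zero {p : Par} {ρ : NN p.n →* Matrix (I p.n) (I p.n) ℤ} {L : Loc ρ}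
    (hc : IsConc p.b ρ L) {m : ℤ} {y : I p.n → ℝ} (hy : chi p.P m (p.uu (y none)) = 0) :
    ip L (p.F m) (p.F m) y = 0 := by
  refine finsum_eq_zero_of_forall_eq_zero fun g => ?_
  have h0 : p.F m (L.aff g y) = 0 := by
    by_contra h1
    rw [hc.2] at h1
    exact Par.F_chi h1 hy
  rw [h0, mul_zero]

/-- the square of a frame function -/
theorem ip_F_sq {p : Par} (h : p.Ok) (m : ℤ) (x : I p.n → ℝ) (hφ : ∀ s, 0 ≤ phi p.b s (x none)) :
    p.F m x * p.F m x = chi p.P m (p.uu (x none)) ^ 2 *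
      ∏ s : Bool, ∏ a : Idx p.n, phi p.b s (x none) / p.lam m (s, a) *
        psi (x (some (s, a)) / p.lam m (s, a)) ^ 2 := by
  have e1 : p.amp m ^ 2 = ∏ s : Bool, ∏ a : Idx p.n, ((p.vr m s : ℝ) ^ a.dist)⁻¹ := by
    unfold Par.amp
    rw [Real.sq_sqrt (Finset.prod_nonneg fun _ _ => by positivity), Fintype.prod_prod_type]
  have e2 : p.G m x = p.Th m (x none) *
      ∏ s : Bool, ∏ a : Idx p.n, psi (x (some (s, a)) / p.lam m (s, a)) := by
    unfold Par.G
    rw [Fintype.prod_option, Fintype.prod_prod_type]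
    rfl
  have e3 : p.Th m (x none) ^ 2 = chi p.P m (p.uu (x none)) ^ 2 *
      ∏ s : Bool, ∏ _a : Idx p.n, phi p.b s (x none) / p.tau m s := by
    unfold Par.Th
    rw [mul_pow, ← Finset.prod_pow]
    congr 1
    refine Finset.prod_congr rfl fun s _ => ?_
    rw [← pow_mul, mul_comm, pow_mul, Real.sq_sqrt (div_nonneg (hφ s) (h.tau_pos m s).le),
      Finset.prod_const, Finset.card_univ]
  rw [← sq, Par.F, mul_pow, e2, mul_pow, e1, e3, mul_left_comm, mul_assoc, ← Finset.prod_pow,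
    ← Finset.prod_mul_distrib, ← Finset.prod_mul_distrib]
  congr 1
  refine Finset.prod_congr rfl fun s _ => ?_
  rw [← Finset.prod_pow, ← Finset.prod_mul_distrib, ← Finset.prod_mul_distrib]
  refine Finset.prod_congr rfl fun a _ => ?_
  rw [Par.lam, div_mul_eq_div_div, div_eq_mul_inv (_ / p.tau m s)]
  ring

/-- a finite sum over a product factorises -/
theorem ip_finsum_pi {σ α : Type} [Fintype σ] [DecidableEq σ] (f : σ → α → ℝ)
    (hf : ∀ s, {u | f s u ≠ 0}.Finite) :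
    ∑ᶠ g : σ → α, ∏ s, f s (g s) = ∏ s, ∑ᶠ u, f s u := by
  have e : ∀ s, ∑ᶠ u, f s u = ∑ u ∈ (hf s).toFinset, f s u := fun s =>
    finsum_eq_sum_of_support_subset _ fun u hu => by
      rw [Finset.mem_coe, Set.Finite.mem_toFinset]
      exact hu
  simp only [e]
  rw [Finset.prod_univ_sum]
  refine finsum_eq_sum_of_support_subset _ fun g hg => ?_
  rw [Finset.mem_coe, Fintype.mem_piFinset]
  intro s
  rw [Set.Finite.mem_toFinset]
  exact Finset.prod_ne_zero_iff.1 hg s (Finset.mem_univ s)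

theorem ip_core {p : Par} (h : p.Ok) {ρ : NN p.n →* Matrix (I p.n) (I p.n) ℤ} {L : Loc ρ}
    (hc : IsConc p.b ρ L) {η : ℝ} (hη : (p.P : ℝ) ^ 2 ≤ η * p.v0) (hη1 : η ≤ 1 / 6) {m : ℤ}
    {y : I p.n → ℝ} (hy : chi p.P m (p.uu (y none)) ≠ 0) :
    ∃ A : ℝ, ip L (p.F m) (p.F m) y = chi p.P m (p.uu (y none)) ^ 2 * A ∧
      (1 - 6 * η) ^ (Fintype.card (Idx p.n) * 2) ≤ A ∧ A ≤ (1 + 6 * η) ^ (Fintype.card (Idx p.n) * 2) := by
  have hP : (0 : ℝ) < (p.P : ℝ) ^ 2 := pow_pos (by linarith [h.two_le_P]) 2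
  have hφ : ∀ s, 0 < phi p.b s (y none) := fun s =>
    (mul_pos_iff_of_pos_left hP).1 ((h.tau_pos m s).trans_le (h.phi_bounds hy s).1)
  have hv : (1 : ℝ) ≤ p.v0 := by exact_mod_cast h.v0_pos
  have hη0 : 0 < η := (mul_pos_iff_of_pos_right (by linarith)).1 (hP.trans_le hη)
  have hr : ∀ s (a : Idx p.n), phi p.b s (y none) / p.lam m (s, a) ≤ η := fun s a => by
    rw [div_le_iff₀ (h.lam_pos m (s, a))]
    have h1 : (p.v0 : ℝ) ≤ p.vr m s := by exact_mod_cast h.v0_le_vr m s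
    have h2 : (p.v0 : ℝ) ≤ (p.vr m s : ℝ) ^ a.dist :=
      h1.trans (le_self_pow₀ (hv.trans h1) a.dist_pos.ne')
    have h3 := (h.tau_pos m s).le
    calc phi p.b s (y none) ≤ (p.P : ℝ) ^ 2 * p.tau m s := (h.phi_bounds hy s).2
      _ ≤ η * p.v0 * p.tau m s := mul_le_mul_of_nonneg_right hη h3
      _ ≤ η * (p.vr m s : ℝ) ^ a.dist * p.tau m s := by gcongr
      _ = η * p.lam m (s, a) := by rw [Par.lam]; ring
  have hR := fun s => riemU (phi p.b s (y none)) η (fun a => p.lam m (s, a)) (fun a => y (some (s, a)))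
    (hφ s) (fun a => h.lam_pos m (s, a)) (hr s) hη1
  refine ⟨∏ s : Bool, ∑ᶠ g : UT p.n ℤ, ∏ a, phi p.b s (y none) / p.lam m (s, a) *
    psi (affU g (phi p.b s (y none)) (fun a => y (some (s, a))) a / p.lam m (s, a)) ^ 2, ?_, ?_, ?_⟩
  · rw [← ip_finsum_pi _ fun s => (hR s).1, mul_finsum]
    refine finsum_congr fun g => ?_
    rw [hc.2]
    exact ip_F_sq h m (aff p.b g y) fun s => (hφ s).le
  · rw [pow_mul, ← Fintype.card_bool, ← Finset.card_univ (α := Bool), ← Finset.prod_const]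
    exact Finset.prod_le_prod (fun _ _ => pow_nonneg (by linarith) _) fun s _ => (hR s).2.1
  · rw [pow_mul, ← Fintype.card_bool, ← Finset.card_univ (α := Bool), ← Finset.prod_const]
    exact Finset.prod_le_prod (fun s _ => (pow_nonneg (by linarith) _).trans (hR s).2.1)
      fun s _ => (hR s).2.2

theorem ip_eta (D : ℕ) {δ : ℝ} (hδ : 0 < δ) :
    ∃ η : ℝ, 0 < η ∧ η ≤ 1 / 6 ∧ 1 - δ ≤ (1 - 6 * η) ^ D ∧ (1 + 6 * η) ^ D ≤ 1 + δ := by
  have h1 : ∀ᶠ η : ℝ in nhds 0, η < 1 / 6 := eventually_lt_nhds (by norm_num)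
  have h2 : ∀ᶠ η : ℝ in nhds 0, 1 - δ < (1 - 6 * η) ^ D :=
    ContinuousAt.eventually_lt continuousAt_const (by fun_prop) (by simpa using hδ)
  have h3 : ∀ᶠ η : ℝ in nhds 0, (1 + 6 * η) ^ D < 1 + δ :=
    ContinuousAt.eventually_lt (by fun_prop) continuousAt_const (by simpa using hδ)
  obtain ⟨η, h0, a1, a2, a3⟩ := (h1.and (h2.and h3)).exists_gt
  exact ⟨η, h0, a1.le, a2.le, a3.le⟩

/-- If `chi ≠ 0` then `φ_s = phi b s θ > 0` (`phi_bounds`) and
`F m (aff g y)² = chi² ∏_s ∏_a (φ_s / lam (s,a)) psi (affU (g s) φ_s X_s a / lam (s,a))²`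
(`amp² = ∏ vr^(-dist)`, `sqrt (φ/tau)^(2D) = ∏_a φ/tau`, `Fintype.prod_option`, `Fintype.prod_prod_type`).
The sum over `g : Bool → UT` is the product of the two sums of `riemU` (restrict to finite supports,
`Finset.prod_univ_sum`), with `η = P² / v0` (`φ ≤ P² tau`, `lam ≥ tau v0`).  Choose `V0` such that
`η ≤ 1/6`, `(1 + 6η)^(2D) ≤ 1 + δ`, `1 - δ ≤ (1 - 6η)^(2D)` (continuity at `η = 0`, or Bernoulli). -/
theorem ip_apx (n R : ℕ) (δ : ℝ) (hδ : 0 < δ) : ∃ V0 : ℕ, ∀ v0 b : ℕ, V0 ≤ v0 →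
    (Par.mk n R v0 b).Ok → ∀ (ρ : NN n →* Matrix (I n) (I n) ℤ) (L : Loc ρ), IsConc b ρ L →
    ∀ (m : ℤ) (y : I n → ℝ),
      |ip L ((Par.mk n R v0 b).F m) ((Par.mk n R v0 b).F m) y -
        chi ((Par.mk n R v0 b).P) m ((Par.mk n R v0 b).uu (y none)) ^ 2| ≤ δ := by
  obtain ⟨η, h0, h1, h2, h3⟩ := ip_eta (Fintype.card (Idx n) * 2) hδ
  refine ⟨⌈((R ^ n : ℕ) : ℝ) ^ 2 / η⌉₊, fun v0 b hv h ρ L hc m y => ?_⟩
  have hη : (((Par.mk n R v0 b).P : ℕ) : ℝ) ^ 2 ≤ η * (Par.mk n R v0 b).v0 := by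
    have := Nat.ceil_le.1 hv
    rw [div_le_iff₀ h0, mul_comm] at this
    exact this
  by_cases hy : chi ((Par.mk n R v0 b).P) m ((Par.mk n R v0 b).uu (y none)) = 0
  · rw [ip_eq_zero (p := Par.mk n R v0 b) hc hy, hy]
    simpa using hδ.le
  · obtain ⟨A, e, a1, a2⟩ := ip_core h hc hη h1 hy
    have b1 : |chi ((Par.mk n R v0 b).P) m ((Par.mk n R v0 b).uu (y none))| ≤ 1 := abs_chi_le _ _
    have b2 : |A - 1| ≤ δ := abs_le.2 ⟨by linarith [h2.trans a1], by linarith [a2.trans h3]⟩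
    rw [e, ← mul_sub_one, abs_mul, abs_pow]
    exact (mul_le_of_le_one_left (abs_nonneg _) (pow_le_one₀ (abs_nonneg _) b1)).trans b2

end Crest.Agent.R129.A
end

-- ▼ part PVb/R129/A/Low

/-! # Fibre representations are dominated by the regular one (task R129/A-Low). Statements frozen. -/

set_option autoImplicit false
open scoped BigOperators Matrix

namespace Crest.Agent.R129.A
variable {ι N : Type} [Fintype ι] [DecidableEq ι] [Group N] {ρ : N →* Matrix ι ι ℤ}

theorem adjM_mul {A : Type} [Group A] (a b : MonoidAlgebra ℂ A) :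
    adjM (a * b) = adjM b * adjM a := by
  induction a using MonoidAlgebra.induction_linear with
  | zero => rw [zero_mul, adjM_zero, mul_zero]
  | add a a' ha ha' => rw [add_mul, adjM_add, adjM_add, ha, ha', mul_add]
  | single h c =>
    induction b using MonoidAlgebra.induction_linear with
    | zero => rw [mul_zero, adjM_zero, zero_mul]
    | add b b' hb hb' => rw [mul_add, adjM_add, adjM_add, hb, hb', add_mul]
    | single h' c' =>
      rw [MonoidAlgebra.single_mul_single, adjM_single, adjM_single, adjM_single,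
        MonoidAlgebra.single_mul_single, mul_inv_rev, map_mul, mul_comm ((starRingEnd ℂ) c)]

theorem adjM_sum {A κ : Type} [Group A] (s : Finset κ) (a : κ → MonoidAlgebra ℂ A) :
    adjM (∑ i ∈ s, a i) = ∑ i ∈ s, adjM (a i) := by
  classical
  induction s using Finset.induction_on with
  | empty => simp [adjM_zero]
  | insert i s hi ih => rw [Finset.sum_insert hi, Finset.sum_insert hi, adjM_add, ih]

theorem low_key {A : Type} [Group A] (a c b : MonoidAlgebra ℂ A) :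
    ‖(adjM c * (a * b)).coeff 1‖ ≤ ‖cvop a‖ * Real.sqrt ‖(adjM c * c).coeff 1‖ *
      Real.sqrt ‖(adjM b * b).coeff 1‖ := by
  have hv : ∀ (b : MonoidAlgebra ℂ A) (y : A), (cvop b (dl 1) : A → ℂ) y = b.coeff y :=
    fun b y => by
      have := mat_cvop b y 1
      rwa [inv_one, mul_one] at this
  have h1 : ∀ b : MonoidAlgebra ℂ A, cvop a (cvop b (dl 1)) = cvop (a * b) (dl 1) := fun b => by
    ext y
    have := hasSum_apply (cvop a) (cvop b (dl 1)) y
    simp only [mat_cvop, hv] at this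
    have h2 := hasSum_conv a b y 1
    simp only [inv_one, mul_one] at h2
    rw [hv]
    exact this.unique h2
  have h2 : ∀ c b : MonoidAlgebra ℂ A,
      (adjM c * b).coeff 1 = inner ℂ (cvop c (dl 1)) (cvop b (dl 1)) := fun c b => by
    have h2 := hasSum_conv (adjM c) b 1 1
    simp only [inv_one, mul_one, one_mul, adjM_coeff, inv_inv] at h2
    have h3 := lp.hasSum_inner (𝕜 := ℂ) (cvop c (dl 1)) (cvop b (dl 1))
    simp only [hv, RCLike.inner_apply'] at h3
    exact h2.unique h3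
  have h3 : ∀ b : MonoidAlgebra ℂ A,
      Real.sqrt ‖(adjM b * b).coeff 1‖ = ‖cvop b (dl 1)‖ := fun b => by
    rw [h2, inner_self_eq_norm_sq_to_K, norm_pow, RCLike.norm_ofReal, abs_norm,
      Real.sqrt_sq (norm_nonneg _)]
  rw [h3, h3, h2, ← h1]
  refine (norm_inner_le_norm _ _).trans ?_
  have := (cvop a).le_opNorm (cvop b (dl 1))
  calc _ ≤ ‖cvop c (dl 1)‖ * (‖cvop a‖ * ‖cvop b (dl 1)‖) :=
        mul_le_mul_of_nonneg_left this (norm_nonneg _)
    _ = _ := by ring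

/-- the modulated box -/
noncomputable def fej (ρ : N →* Matrix ι ι ℤ) (L : ℕ) (x₀ : ι → ℝ) : MonoidAlgebra ℂ (HG ρ) :=
  ∑ k ∈ Fintype.piFinset fun _ : ι => Finset.Ico (0 : ℤ) L,
    MonoidAlgebra.single (⟨k, 1⟩ : HG ρ) ((starRingEnd ℂ) (ch k x₀))

theorem low_count (κ : ℤ) : Filter.Tendsto (fun L : ℕ =>
    (∑ j ∈ Finset.Ico (0 : ℤ) L, if j + κ ∈ Finset.Ico (0 : ℤ) L then (1 : ℂ) else 0) / L)
    Filter.atTop (nhds 1) := by
  have h : Filter.Tendsto (fun L : ℕ => (1 : ℂ) - (|κ| : ℤ) / (L : ℂ)) Filter.atTop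
      (nhds (1 - 0)) :=
    tendsto_const_nhds.sub (tendsto_const_div_atTop_nhds_zero_nat _)
  rw [sub_zero] at h
  refine h.congr' ?_
  filter_upwards [Filter.eventually_gt_atTop κ.natAbs] with L hL
  have hL0 : (L : ℂ) ≠ 0 := by exact_mod_cast (by omega : L ≠ 0)
  rw [Finset.sum_boole]
  have : (Finset.Ico (0 : ℤ) L).filter (fun j => j + κ ∈ Finset.Ico (0 : ℤ) L) =
      Finset.Ico (max 0 (-κ)) (min L (L - κ)) := by
    ext j
    simp only [Finset.mem_filter, Finset.mem_Ico]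
    omega
  rw [this, Int.card_Ico]
  have e : (((min (L : ℤ) (L - κ) - max 0 (-κ)).toNat : ℕ) : ℤ) = L - |κ| := by
    rw [Int.abs_eq_natAbs]; omega
  have e' : (((min (L : ℤ) (L - κ) - max 0 (-κ)).toNat : ℕ) : ℂ) = L - ((|κ| : ℤ) : ℂ) := by
    exact_mod_cast congrArg (Int.cast : ℤ → ℂ) e
  rw [e']
  field_simp

theorem low_lim (e : MonoidAlgebra ℂ (HG ρ)) (x₀ : ι → ℝ) : Filter.Tendsto
    (fun L : ℕ => (adjM (fej ρ L x₀) * e * fej ρ L x₀).coeff 1 / (L : ℂ) ^ Fintype.card ι)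
    Filter.atTop (nhds (ev e 1 x₀)) := by
  classical
  induction e using MonoidAlgebra.induction_linear with
  | zero => simp [ev_zero]
  | add e e' he he' =>
    simp only [mul_add, add_mul, MonoidAlgebra.coeff_add, Finsupp.add_apply, add_div, ev_add,
      Pi.add_apply]
    exact he.add he'
  | single y c =>
    have e1 : ∀ L : ℕ, (adjM (fej ρ L x₀) * MonoidAlgebra.single y c * fej ρ L x₀).coeff 1 =
        ∑ k ∈ Fintype.piFinset fun _ : ι => Finset.Ico (0 : ℤ) L,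
          ∑ k' ∈ Fintype.piFinset fun _ : ι => Finset.Ico (0 : ℤ) L,
            if y.g = 1 ∧ k + y.k = k' then ch k' x₀ * c * (starRingEnd ℂ) (ch k x₀) else 0 := by
      intro L
      unfold fej
      rw [adjM_sum]
      simp only [Finset.mul_sum, Finset.sum_mul, adjM_single, MonoidAlgebra.single_mul_single,
        MonoidAlgebra.coeff_sum, Finsupp.finsetSum_apply, MonoidAlgebra.coeff_single,
        Finsupp.single_apply, Complex.conj_conj]
      refine Finset.sum_congr rfl fun k _ => Finset.sum_congr rfl fun k' _ => ?_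
      refine if_congr ?_ rfl rfl
      rw [mul_assoc, inv_mul_eq_one, HG.ext_iff]
      simp only [HG.mul_k, HG.mul_g, mul_one]
      constructor
      · rintro ⟨h1, h2⟩
        rw [← h2, inv_one, map_one, Matrix.vecMul_one] at h1
        exact ⟨h2.symm, by rw [h1, add_comm]⟩
      · rintro ⟨h1, h2⟩
        rw [h1, inv_one, map_one, Matrix.vecMul_one, ← h2, add_comm]
        exact ⟨rfl, rfl⟩
    simp only [e1]
    rw [ev_single]
    by_cases hy : y.g = 1
    · simp only [hy, true_and, if_true, Finset.sum_ite_eq]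
      have e2 : ∀ L : ℕ, (∑ k ∈ Fintype.piFinset fun _ : ι => Finset.Ico (0 : ℤ) L,
          if k + y.k ∈ Fintype.piFinset (fun _ : ι => Finset.Ico (0 : ℤ) L) then
            ch (k + y.k) x₀ * c * (starRingEnd ℂ) (ch k x₀) else 0) / (L : ℂ) ^ Fintype.card ι =
          c * ch y.k x₀ * ∏ i, ((∑ j ∈ Finset.Ico (0 : ℤ) L,
            if j + y.k i ∈ Finset.Ico (0 : ℤ) L then (1 : ℂ) else 0) / L) := fun L => by
        rw [Finset.prod_div_distrib, Finset.prod_const, Finset.card_univ, ← mul_div_assoc,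
          Finset.prod_univ_sum, Finset.mul_sum]
        congr 1
        refine Finset.sum_congr rfl fun k _ => ?_
        rw [Finset.prod_boole]
        simp only [Fintype.mem_piFinset, Pi.add_apply, Finset.mem_univ, forall_const]
        split_ifs
        · rw [ch_add]
          have : ch k x₀ * (starRingEnd ℂ) (ch k x₀) = 1 := by
            rw [← ch_neg, ← ch_add, add_neg_cancel, ch_zero]
          linear_combination c * ch y.k x₀ * this
        · rw [mul_zero]
      simp only [e2]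
      have := (tendsto_finsetProd (Finset.univ : Finset ι)
        fun i _ => low_count (y.k i)).const_mul (c * ch y.k x₀)
      simpa using this
    · simp [hy]

/-- a vector on the fibre -/
noncomputable def beta (ρ : N →* Matrix ι ι ℤ) (t : Finset N) (η : N → ℂ) :
    MonoidAlgebra ℂ (HG ρ) :=
  ∑ h ∈ t, MonoidAlgebra.single (⟨0, h⟩ : HG ρ) (η h)

theorem ev_mul_single (a : MonoidAlgebra ℂ (HG ρ)) (h : N) (c : ℂ) (g : N) (x : ι → ℝ) :
    ev (a * MonoidAlgebra.single (⟨0, h⟩ : HG ρ) c) g x = ev a (g * h⁻¹) x * c := by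
  rw [ev_mul]
  unfold tw
  rw [finsum_eq_single _ (g * h⁻¹)]
  · rw [ev_single, if_pos (by simp), ch_zero, mul_one]
  · intro k hk
    rw [ev_single, if_neg, mul_zero]
    intro e
    apply hk
    simp only at e
    rw [e]; simp

theorem ev_beta (a : MonoidAlgebra ℂ (HG ρ)) (x₀ : ι → ℝ) (s t : Finset N) (η' η : N → ℂ) :
    ev (adjM (beta ρ s η') * (a * beta ρ t η)) 1 x₀ =
      ∑ g ∈ s, ∑ h ∈ t, (starRingEnd ℂ) (η' g) * ev a (g * h⁻¹) (act ρ g x₀) * η h := by
  unfold beta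
  rw [adjM_sum, Finset.sum_mul, ev_sum, Finset.sum_apply, Finset.sum_apply]
  refine Finset.sum_congr rfl fun g _ => ?_
  rw [adjM_single, ev_mul, tw_single, HG.inv_g, HG.inv_k, inv_inv, mul_one, Matrix.zero_vecMul,
    neg_zero, ch_zero, mul_one, Finset.mul_sum, ev_sum, Finset.sum_apply, Finset.sum_apply,
    Finset.mul_sum]
  refine Finset.sum_congr rfl fun h _ => ?_
  rw [ev_mul_single, mul_assoc]

/-- Følner argument.  For `L ≥ 1` let `B_L = (Finset.Ico 0 L)^ι` and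
`ξ_L = ∑_{h ∈ t} ∑_{k ∈ B_L} η h * conj (ch k x₀) • dl ⟨k ᵥ* ρ h⁻¹, h⟩`, `ξ'_L` likewise from `η'`, `s`.
The basis vectors are distinct, so `‖ξ_L‖² = L^|ι| ∑ ‖η h‖²`.  With `mat_cvop`,
`⟪ξ'_L, cvop a ξ_L⟫ = ∑_{g,h} conj (η' g) η h ∑_{y ∈ supp a, y.g = g h⁻¹} a y * ch (y.k ᵥ* ρ g) x₀ *
#{k ∈ B_L | k + y.k ᵥ* ρ g ∈ B_L}` because
`y * ⟨k ᵥ* ρ h⁻¹, h⟩ = ⟨(k + y.k ᵥ* ρ g) ᵥ* ρ g⁻¹, g⟩` for `g = y.g * h`.  The count divided by `L^|ι|` tends
to `1` (it is `∏_i (L - |κ i|)` for large `L`), and `ch (y.k ᵥ* ρ g) x₀ = ch y.k (act ρ g x₀)`.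
Finish with `le_of_tendsto'`. -/
theorem fibre_le (a : MonoidAlgebra ℂ (HG ρ)) (x₀ : ι → ℝ) (s t : Finset N) (η' η : N → ℂ) :
    ‖∑ g ∈ s, ∑ h ∈ t, (starRingEnd ℂ) (η' g) * ev a (g * h⁻¹) (act ρ g x₀) * η h‖ ≤
      ‖cvop a‖ * Real.sqrt (∑ g ∈ s, ‖η' g‖ ^ 2) * Real.sqrt (∑ h ∈ t, ‖η h‖ ^ 2) := by
  classical
  have hn : ∀ (t : Finset N) (η : N → ℂ),
      ‖ev (adjM (beta ρ t η) * (1 * beta ρ t η)) 1 x₀‖ = ∑ h ∈ t, ‖η h‖ ^ 2 := fun t η => by
    rw [ev_beta]
    have : ∑ g ∈ t, ∑ h ∈ t, (starRingEnd ℂ) (η g) *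
        ev (1 : MonoidAlgebra ℂ (HG ρ)) (g * h⁻¹) (act ρ g x₀) * η h =
        ((∑ h ∈ t, ‖η h‖ ^ 2 : ℝ) : ℂ) := by
      rw [Complex.ofReal_sum]
      refine Finset.sum_congr rfl fun g hg => ?_
      rw [Finset.sum_eq_single g]
      · rw [MonoidAlgebra.one_def, ev_single, if_pos (by simp), HG.one_k, ch_zero,
          ← Complex.normSq_eq_norm_sq, ← Complex.mul_conj]
        ring
      · intro h _ hne
        rw [MonoidAlgebra.one_def, ev_single, if_neg, mul_zero, zero_mul]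
        intro e
        exact hne (mul_inv_eq_one.1 e.symm).symm
      · intro h; exact absurd hg h
    rw [this, Complex.norm_real, Real.norm_of_nonneg (Finset.sum_nonneg fun _ _ => by positivity)]
  rw [← ev_beta, ← hn, ← hn]
  have l1 := (low_lim (adjM (beta ρ s η') * (a * beta ρ t η)) x₀).norm
  have l2 := (low_lim (adjM (beta ρ s η') * (1 * beta ρ s η')) x₀).norm.sqrt
  have l3 := (low_lim (adjM (beta ρ t η) * (1 * beta ρ t η)) x₀).norm.sqrt
  refine le_of_tendsto_of_tendsto l1 ((l2.const_mul ‖cvop a‖).mul l3) ?_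
  filter_upwards [Filter.eventually_gt_atTop 0] with L hL
  have hN : (0 : ℝ) < (L : ℝ) ^ Fintype.card ι := by positivity
  have k := low_key a (beta ρ s η' * fej ρ L x₀) (beta ρ t η * fej ρ L x₀)
  simp only [adjM_mul, one_mul, mul_assoc, norm_div, norm_pow, Complex.norm_natCast] at k ⊢
  rw [Real.sqrt_div' _ hN.le, Real.sqrt_div' _ hN.le, div_mul_div_comm,
    Real.mul_self_sqrt hN.le, ← mul_div_assoc]
  exact div_le_div_of_nonneg_right k hN.le

/-- Schur: bound each term by `w (g h⁻¹) ‖η' g‖ ‖η h‖` and use Cauchy–Schwarz twice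
(`∑_h w (g h⁻¹) ≤ r`, `∑_g w (g h⁻¹) ≤ r` after cutting `w` to the support `S`). -/
theorem fibre_bd {a : Fn ι N} {r : ℝ} (ha : Bd a r) (x₀ : ι → ℝ) (s t : Finset N)
    (η' η : N → ℂ) :
    ‖∑ g ∈ s, ∑ h ∈ t, (starRingEnd ℂ) (η' g) * a (g * h⁻¹) (act ρ g x₀) * η h‖ ≤
      r * Real.sqrt (∑ g ∈ s, ‖η' g‖ ^ 2) * Real.sqrt (∑ h ∈ t, ‖η h‖ ^ 2) := by
  have hr := ha.nonneg
  obtain ⟨S, w, -, h1, -, h3⟩ := ha.norm
  have hw : ∀ g, 0 ≤ w g := fun g => (norm_nonneg _).trans (h1 g 0)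
  have a1 : ‖∑ g ∈ s, ∑ h ∈ t, (starRingEnd ℂ) (η' g) * a (g * h⁻¹) (act ρ g x₀) * η h‖ ≤
      ∑ p ∈ s ×ˢ t, w (p.1 * p.2⁻¹) * ‖η' p.1‖ * ‖η p.2‖ := by
    rw [Finset.sum_product]
    refine (norm_sum_le _ _).trans (Finset.sum_le_sum fun g _ => (norm_sum_le _ _).trans
      (Finset.sum_le_sum fun h _ => ?_))
    rw [norm_mul, norm_mul, RCLike.norm_conj, mul_comm ‖η' g‖]
    exact mul_le_mul_of_nonneg_right (mul_le_mul_of_nonneg_right (h1 _ _) (norm_nonneg _))
      (norm_nonneg _)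
  have a2 := Finset.sum_sq_le_sum_mul_sum_of_sq_le_mul (s ×ˢ t)
    (r := fun p => w (p.1 * p.2⁻¹) * ‖η' p.1‖ * ‖η p.2‖)
    (f := fun p => w (p.1 * p.2⁻¹) * ‖η' p.1‖ ^ 2) (g := fun p => w (p.1 * p.2⁻¹) * ‖η p.2‖ ^ 2)
    (fun p _ => mul_nonneg (hw _) (by positivity)) (fun p _ => mul_nonneg (hw _) (by positivity))
    (fun p _ => le_of_eq (by ring))
  have hA : 0 ≤ ∑ g ∈ s, ‖η' g‖ ^ 2 := Finset.sum_nonneg fun _ _ => by positivity
  have hB : 0 ≤ ∑ g ∈ t, ‖η g‖ ^ 2 := Finset.sum_nonneg fun _ _ => by positivity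
  have a3 : ∑ p ∈ s ×ˢ t, w (p.1 * p.2⁻¹) * ‖η' p.1‖ ^ 2 ≤ r * ∑ g ∈ s, ‖η' g‖ ^ 2 := by
    rw [Finset.sum_product, Finset.mul_sum]
    refine Finset.sum_le_sum fun g _ => ?_
    simp only []
    rw [← Finset.sum_mul]
    refine mul_le_mul_of_nonneg_right ?_ (by positivity)
    have := h3 (t.map ((Equiv.inv N).trans (Equiv.mulLeft g)).toEmbedding)
    rw [Finset.sum_map] at this
    exact this
  have a4 : ∑ p ∈ s ×ˢ t, w (p.1 * p.2⁻¹) * ‖η p.2‖ ^ 2 ≤ r * ∑ g ∈ t, ‖η g‖ ^ 2 := by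
    rw [Finset.sum_product_right, Finset.mul_sum]
    refine Finset.sum_le_sum fun h _ => ?_
    simp only []
    rw [← Finset.sum_mul]
    refine mul_le_mul_of_nonneg_right ?_ (by positivity)
    have := h3 (s.map (Equiv.mulRight h⁻¹).toEmbedding)
    rw [Finset.sum_map] at this
    exact this
  refine a1.trans (le_of_sq_le_sq (a2.trans ?_) (by positivity))
  rw [mul_pow, mul_pow, Real.sq_sqrt hA, Real.sq_sqrt hB]
  calc _ ≤ (r * ∑ g ∈ s, ‖η' g‖ ^ 2) * (r * ∑ g ∈ t, ‖η g‖ ^ 2) :=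
        mul_le_mul a3 a4 (Finset.sum_nonneg fun p _ => mul_nonneg (hw _) (by positivity))
          (mul_nonneg hr hA)
    _ = _ := by ring

end Crest.Agent.R129.A
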